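import Vale.Agent.P147.Bal.Hit
import Vale.Agent.P147.Cond.Union
import Vale.Agent.P147.Mixing

/-!
P147: zero-one law for shift-invariant events when a strictly superharmonic function of the
displacement exists.
-/

open MeasureTheory Filter Finset
open scoped ENNReal Topology symmDiff

namespace Vale.Agent.P147.Bal

open Vale.Agent.P147.Cond

variable {d k : ℕ} [NeZero k]

/-- The environment seen from `x`. -/
def sh (x : Site d) (ω : Site d → Row k) : Site d → Row k := fun z => ω (x + z)

omit [NeZero k] in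
theorem measurable_sh (x : Site d) : Measurable (sh (k := k) x) :=
  measurable_pi_lambda _ fun _ => measurable_pi_apply _

variable (v : Fin k → Site d) (μ : Measure (Row k)) [IsProbabilityMeasure μ]

theorem measurePreserving_sh (x : Site d) :
    MeasurePreserving (sh (k := k) x) (envLaw μ) (envLaw μ) :=
  ⟨measurable_sh x, map_shift_env μ x⟩

/-- The smaller of the quenched probabilities of an event and of its complement. -/
noncomputable def phi (B : Set (ℕ → Fin k)) (ω : Site d → Row k) : ℝ≥0∞ :=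
  min (quenched v ω B) (quenched v ω Bᶜ)

theorem measurable_phi {B : Set (ℕ → Fin k)} (hB : MeasurableSet B) : Measurable (phi v B) :=
  (measurable_quenched v hB).min (measurable_quenched v hB.compl)

theorem quenched_add_compl (ω : Site d → Row k) {B : Set (ℕ → Fin k)} (hB : MeasurableSet B) :
    quenched v ω B + quenched v ω Bᶜ = 1 := by
  have hm : Measurable fun u : ℕ → ℝ => steps v ω u :=
    Measurable.comp (g := fun z : (Site d → Row k) × (ℕ → ℝ) => steps v z.1 z.2)
      (f := fun u : ℕ → ℝ => (ω, u)) (measurable_steps v) (measurable_const.prodMk measurable_id)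
  have hs : MeasurableSet {u | steps v ω u ∈ B} := hm hB
  have := measure_add_measure_compl (μ := uLaw) hs
  rwa [measure_univ] at this

theorem phi_change {g : Site d → ℝ} {a c : ℝ} (hg : Super g a c) {ω ω' : Site d → Row k}
    {V : Finset (Site d)} (hω' : ∀ z, Drift v g a c (ω' z)) (h : ∀ z ∉ V, ω' z = ω z)
    (B : Set (ℕ → Fin k)) : phi v B ω' ≤ phi v B ω + ENNReal.ofReal (∑ z ∈ V, g z) := by
  rw [phi, phi, ← min_add_add_right]
  exact min_le_min (quenched_change hg hω' h B) (quenched_change hg hω' h Bᶜ)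

theorem phi_mass_le {B : Set (ℕ → Fin k)} (hB : MeasurableSet B)
    (hinv : ∀ t, t ∈ B ↔ (fun i => t (i + 1)) ∈ B) {C : Set (ℕ → Fin k)} (hC : MeasurableSet C)
    (n : ℕ) (hdep : ∀ t t' : ℕ → Fin k, (∀ i < n, t i = t' i) → t ∈ C → t' ∈ C) :
    ∑ w : Fin n → Fin k,
      ∫⁻ ω, weight v (ext' w) n ω * phi v B (sh (pos v (ext' w) n) ω) ∂envLaw μ ≤
      law v μ (B ∆ C) := by
  classical
  have hD : MeasurableSet (B ∆ C) := hB.symmDiff hC
  conv_rhs => rw [← Set.univ_inter (B ∆ C)]
  rw [sum_prefix (law v μ) n (E := Set.univ) (fun _ _ _ h => h) hD]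
  refine sum_le_sum fun w _ => ?_
  rw [if_pos (Set.mem_univ _)]
  have key : ∀ B' : Set (ℕ → Fin k), MeasurableSet B' → (∀ ω, phi v B ω ≤ quenched v ω B') →
      ({t | (∀ i < n, t i = ext' w i) ∧ (fun i => t (n + i)) ∈ B'} ⊆
        {t | ∀ i < n, t i = ext' w i} ∩ B ∆ C) →
      ∫⁻ ω, weight v (ext' w) n ω * phi v B (sh (pos v (ext' w) n) ω) ∂envLaw μ ≤
        law v μ ({t | ∀ i < n, t i = ext' w i} ∩ B ∆ C) := by
    intro B' hB' hle hsub
    refine le_trans ?_ (measure_mono hsub)
    rw [law_apply v μ (measurableSet_prefix_inter n _ hB')]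
    refine lintegral_mono fun ω => ?_
    rw [quenched_prefix v ω _ n hB']
    exact mul_le_mul_right (hle _) _
  by_cases hw : ext' w ∈ C
  · refine key Bᶜ hB.compl (fun ω => min_le_right _ _) fun t ht => ⟨ht.1, Or.inr ?_⟩
    exact ⟨hdep _ t (fun i hi => (ht.1 i hi).symm) hw,
      fun hb => ht.2 ((shift_invariant hinv n t).2 hb)⟩
  · refine key B hB (fun ω => min_le_left _ _) fun t ht => ⟨ht.1, Or.inl ?_⟩
    exact ⟨(shift_invariant hinv n t).1 ht.2, fun hc => hw (hdep t _ ht.1 hc)⟩

/-- All differences between positions at times at most `u` apart. -/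
noncomputable def window (u : ℕ) : Finset (Site d) :=
  ((range (u + 1)) ×ˢ (univ : Finset (Fin u → Fin k))).image fun p => -pos v (ext' p.2) p.1

theorem mem_window (s : ℕ → Fin k) {l n u : ℕ} (hl : l ≤ n) (hu : n - l ≤ u) :
    pos v s l - pos v s n ∈ window v u := by
  simp only [window, mem_image, mem_product, mem_range, mem_univ, and_true, Prod.exists]
  refine ⟨n - l, fun i => s (l + i), by omega, ?_⟩
  obtain ⟨r, rfl⟩ := Nat.exists_eq_add_of_le hl
  rw [Nat.add_sub_cancel_left] at hu ⊢
  rw [pos_add, pos_congr v (t := ext' fun i : Fin u => s (l + i)) (t' := fun i => s (l + i))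
    (n := r) (fun i hi => by simp [ext', show i < u by omega]) le_rfl]
  abel

/-- Product of all step probabilities on a window. -/
noncomputable def winProb (u : ℕ) (ω : Site d → Row k) : ℝ≥0∞ :=
  ∏ z ∈ window v u, ∏ i, ENNReal.ofReal ((ω z).1 i)

omit [NeZero k] in
theorem row_le_one (p : Row k) (i : Fin k) : ENNReal.ofReal (p.1 i) ≤ 1 := by
  rw [← ENNReal.ofReal_one]
  refine ENNReal.ofReal_le_ofReal ?_
  rw [← p.2.2]
  exact single_le_sum (fun j _ => p.2.1 j) (mem_univ i)

theorem winProb_le (u : ℕ) (ω : Site d → Row k) {z : Site d} (hz : z ∈ window v u) (i : Fin k) :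
    winProb v u ω ≤ ENNReal.ofReal ((ω z).1 i) := by
  classical
  unfold winProb
  rw [← mul_prod_erase _ _ hz, ← mul_prod_erase _ _ (mem_univ i), mul_assoc]
  refine mul_le_of_le_one_right' (mul_le_one' ?_ ?_)
  · exact prod_le_one' fun j _ => row_le_one _ _
  · exact prod_le_one' fun y _ => prod_le_one' fun j _ => row_le_one _ _

theorem winProb_le_one (u : ℕ) (ω : Site d → Row k) : winProb v u ω ≤ 1 :=
  prod_le_one' fun _ _ => prod_le_one' fun _ _ => row_le_one _ _

theorem measurable_winProb (u : ℕ) : Measurable (winProb v u) :=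
  Finset.measurable_prod _ fun z _ => Finset.measurable_prod _ fun i _ =>
    (measurable_row i).comp (measurable_pi_apply z)

/-- Number of old visits to recently visited sites. -/
noncomputable def old (j n : ℕ) (s : ℕ → Fin k) : ℕ :=
  ((range j).filter fun i => pos v s i ∈ (Icc j n).image (pos v s)).card

/-- Total hitting bound of the old sites from the present one. -/
def far (g : Site d → ℝ) (j n : ℕ) (s : ℕ → Fin k) : ℝ :=
  ∑ i ∈ range j, g (pos v s i - pos v s n)

/-- The lower bound used for a good word. -/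
noncomputable def lowFun (B : Set (ℕ → Fin k)) (δ : ℝ≥0∞) (u M : ℕ) (ω : Site d → Row k) : ℝ≥0∞ :=
  {η | δ + δ ≤ phi v B η}.indicator (fun η => winProb v u η ^ (u + M)) ω

theorem measurable_lowFun {B : Set (ℕ → Fin k)} (hB : MeasurableSet B) (δ : ℝ≥0∞) (u M : ℕ) :
    Measurable (lowFun v B δ u M) :=
  ((measurable_winProb v u).pow_const _).indicator
    (measurableSet_le measurable_const (measurable_phi v hB))

variable {g : Site d → ℝ} {a c : ℝ}

theorem ae_drift (hdr : ∀ᵐ p ∂μ, Drift v g a c p) :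
    ∀ᵐ ω ∂envLaw (d := d) μ, ∀ z, Drift v g a c (ω z) :=
  ae_all_iff.2 fun z =>
    (measurePreserving_eval_infinitePi (fun _ : Site d => μ) z).quasiMeasurePreserving.ae hdr

theorem word_bound (hg : Super g a c) (hdr : ∀ᵐ p ∂μ, Drift v g a c p) {B : Set (ℕ → Fin k)}
    (hB : MeasurableSet B) {δ : ℝ} {u M j : ℕ} (s : ℕ → Fin k)
    (hS : far v g j (j + u) s ≤ δ) (hM : old v j (j + u) s ≤ M) :
    ENNReal.ofReal δ * (∫⁻ ω, lowFun v B (ENNReal.ofReal δ) u M ω ∂envLaw μ) *
        ∫⁻ ω, weight v s (j + u) ω ∂envLaw μ ≤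
      ∫⁻ ω, weight v s (j + u) ω * phi v B (sh (pos v s (j + u)) ω) ∂envLaw μ := by
  classical
  set n := j + u
  set x := pos v s n
  set R := (Icc j n).image (pos v s) with hR
  set V := ((range j).image (pos v s)) \ R with hV
  set WV : (Site d → Row k) → ℝ≥0∞ := fun ω =>
    ∏ i ∈ (range n).filter (fun i => pos v s i ∈ V), ENNReal.ofReal ((ω (pos v s i)).1 (s i))
  set WR : (Site d → Row k) → ℝ≥0∞ := fun ω =>
    ∏ i ∈ (range n).filter (fun i => ¬ pos v s i ∈ V), ENNReal.ofReal ((ω (pos v s i)).1 (s i))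
  have hWVm : Measurable WV := Finset.measurable_prod _ fun i _ =>
    (measurable_row _).comp (measurable_pi_apply _)
  have hsplit : ∀ p : (Site d → Row k) × (Site d → Row k),
      weight v s n (comb (↑V) p) = WV p.1 * WR p.2 := fun p => by
    rw [weight, ← prod_filter_mul_prod_filter_not _ (fun i => pos v s i ∈ V)]
    congr 1 <;> refine prod_congr rfl fun i hi => ?_
    · rw [comb, if_pos (mem_coe.2 (mem_filter.1 hi).2)]
    · rw [comb, if_neg (fun h => (mem_filter.1 hi).2 (mem_coe.1 h))]
  have hWR : ∀ ω, winProb v u (sh x ω) ^ (u + M) ≤ WR ω := fun ω => by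
    set F := (range n).filter (fun i => ¬ pos v s i ∈ V)
    have hF : ∀ i ∈ F, pos v s i ∈ R := fun i hi => by
      obtain ⟨hin, hiV⟩ := mem_filter.1 hi
      rcases lt_or_ge i j with hij | hij
      · by_contra h
        exact hiV (mem_sdiff.2 ⟨mem_image_of_mem _ (mem_range.2 hij), h⟩)
      · exact mem_image_of_mem _ (mem_Icc.2 ⟨hij, (mem_range.1 hin).le⟩)
    have hcard : F.card ≤ u + M := by
      have hsub : F ⊆ ((range j).filter fun i => pos v s i ∈ R) ∪ Ico j n := fun i hi => by
        rcases lt_or_ge i j with hij | hij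
        · exact mem_union_left _ (mem_filter.2 ⟨mem_range.2 hij, hF i hi⟩)
        · exact mem_union_right _ (mem_Ico.2 ⟨hij, mem_range.1 (mem_filter.1 hi).1⟩)
      have h1 := (card_le_card hsub).trans (card_union_le _ _)
      have h2 : ((range j).filter fun i => pos v s i ∈ R).card ≤ M := hM
      rw [Nat.card_Ico] at h1
      omega
    calc winProb v u (sh x ω) ^ (u + M) ≤ winProb v u (sh x ω) ^ F.card :=
          pow_le_pow_right_of_le_one' (winProb_le_one v u _) hcard
      _ = ∏ i ∈ F, winProb v u (sh x ω) := (prod_const _).symm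
      _ ≤ _ := by
          refine prod_le_prod' fun i hi => ?_
          obtain ⟨l, hl, hle⟩ := mem_image.1 (hF i hi)
          obtain ⟨h1, h2⟩ := mem_Icc.1 hl
          have hw := winProb_le v u (sh x ω) (mem_window v s h2 (by omega : n - l ≤ u)) (s i)
          simp only [sh, x, add_sub_cancel] at hw
          rwa [hle] at hw
  have hpt : ∀ᵐ p ∂(envLaw (d := d) μ).prod (envLaw μ),
      WV p.1 * (ENNReal.ofReal δ * lowFun v B (ENNReal.ofReal δ) u M (sh x p.2)) ≤
        weight v s n (comb (↑V) p) * phi v B (sh x (comb (↑V) p)) := by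
    filter_upwards [Measure.quasiMeasurePreserving_fst.ae (ae_drift v μ hdr),
      Measure.quasiMeasurePreserving_snd.ae (ae_drift v μ hdr)] with p hp1 hp2
    rw [hsplit, mul_assoc]
    refine mul_le_mul_right ?_ _
    simp only [lowFun, Set.indicator_apply, Set.mem_setOf_eq]
    split_ifs with hlow
    · have hch := phi_change v hg (ω := sh x (comb (↑V) p)) (ω' := sh x p.2)
        (V := V.image fun z => z - x) (fun z => hp2 _) (fun z hz => ?_) B
      · have hsum : ∑ y ∈ V.image (fun z => z - x), g y ≤ δ := by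
          refine le_trans ?_ hS
          rw [sum_image fun z _ z' _ h => sub_left_injective h]
          calc ∑ z ∈ V, g (z - x) ≤ ∑ z ∈ (range j).image (pos v s), g (z - x) :=
                sum_le_sum_of_subset_of_nonneg sdiff_subset fun z _ _ => hg.nonneg _
            _ ≤ _ := sum_image_le_of_nonneg fun z _ => hg.nonneg _
        have h2 : ENNReal.ofReal δ + ENNReal.ofReal δ ≤
            phi v B (sh x (comb (↑V) p)) + ENNReal.ofReal δ :=
          hlow.trans (hch.trans (add_le_add le_rfl (ENNReal.ofReal_le_ofReal hsum)))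
        rw [mul_comm (ENNReal.ofReal δ)]
        exact mul_le_mul' (hWR p.2) ((ENNReal.add_le_add_iff_right ENNReal.ofReal_ne_top).1 h2)
      · have : x + z ∉ V := fun h => hz (mem_image.2 ⟨x + z, h, add_sub_cancel_left x z⟩)
        simp only [sh, comb]
        rw [if_neg (fun h => this (mem_coe.1 h))]
    · simp
  have hmap : ∀ f : (Site d → Row k) → ℝ≥0∞, Measurable f →
      ∫⁻ p, f (comb (↑V) p) ∂(envLaw μ).prod (envLaw μ) = ∫⁻ ω, f ω ∂envLaw μ := fun f hf => by
    conv_rhs => rw [← map_comb μ (↑V : Set (Site d))]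
    exact (lintegral_map hf (measurable_comb _)).symm
  have hlow : Measurable fun ω => lowFun v B (ENNReal.ofReal δ) u M (sh x ω) :=
    (measurable_lowFun v hB _ u M).comp (measurable_sh x)
  have hphi : Measurable fun ω => weight v s n ω * phi v B (sh x ω) :=
    (measurable_weight v s n).mul ((measurable_phi v hB).comp (measurable_sh x))
  have hw : ∫⁻ ω, weight v s n ω ∂envLaw μ ≤ ∫⁻ ω, WV ω ∂envLaw μ := by
    rw [← hmap _ (measurable_weight v s n)]
    calc ∫⁻ p, weight v s n (comb (↑V) p) ∂(envLaw μ).prod (envLaw μ)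
        ≤ ∫⁻ p, WV p.1 ∂(envLaw μ).prod (envLaw μ) := lintegral_mono fun p => by
          rw [hsplit]
          exact mul_le_of_le_one_right' (prod_le_one' fun i _ => row_le_one _ _)
      _ = _ := by
          exact measurePreserving_fst.lintegral_comp hWVm
  have hr : ∫⁻ ω, lowFun v B (ENNReal.ofReal δ) u M (sh x ω) ∂envLaw μ =
      ∫⁻ ω, lowFun v B (ENNReal.ofReal δ) u M ω ∂envLaw μ :=
    (measurePreserving_sh μ x).lintegral_comp (measurable_lowFun v hB _ u M)
  calc _ ≤ ENNReal.ofReal δ * (∫⁻ ω, lowFun v B (ENNReal.ofReal δ) u M ω ∂envLaw μ) *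
        ∫⁻ ω, WV ω ∂envLaw μ := mul_le_mul_right hw _
    _ = ∫⁻ p, WV p.1 * (ENNReal.ofReal δ * lowFun v B (ENNReal.ofReal δ) u M (sh x p.2))
          ∂(envLaw μ).prod (envLaw μ) := by
        rw [lintegral_prod_mul hWVm.aemeasurable (hlow.const_mul _).aemeasurable,
          lintegral_const_mul _ hlow, hr]
        ring
    _ ≤ ∫⁻ p, weight v s n (comb (↑V) p) * phi v B (sh x (comb (↑V) p))
          ∂(envLaw μ).prod (envLaw μ) := lintegral_mono_ae hpt
    _ = _ := hmap _ hphi

theorem weight_eq_wt (s : ℕ → Fin k) (n : ℕ) (ω : Site d → Row k) :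
    weight v s n ω = ENNReal.ofReal (wt v ω s n) := by
  rw [weight, wt, ENNReal.ofReal_prod_of_nonneg fun i _ => (ω (pos v s i)).2.1 _]

theorem sum_mass (n : ℕ) :
    ∑ w : Fin n → Fin k, ∫⁻ ω, weight v (ext' w) n ω ∂envLaw μ = 1 := by
  rw [← lintegral_finsetSum _ fun w _ => measurable_weight v _ n]
  simp only [weight_eq_wt]
  calc ∫⁻ ω, ∑ w : Fin n → Fin k, ENNReal.ofReal (wt v ω (ext' w) n) ∂envLaw μ
      = ∫⁻ _, 1 ∂envLaw μ := lintegral_congr fun ω => by
        rw [← ENNReal.ofReal_sum_of_nonneg fun w _ => wt_nonneg v ω _ n]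
        have := avg_const v ω n
        simp only [avg, mul_one] at this
        rw [this, ENNReal.ofReal_one]
    _ = 1 := by simp

theorem exists_lower (hg : Super g a c) (hdr : ∀ᵐ p ∂μ, Drift v g a c p)
    (hpos : ∀ i, ∀ᵐ p ∂μ, (0 : ℝ) < p.1 i) {B : Set (ℕ → Fin k)} (hB : MeasurableSet B)
    (hne : ¬ ∀ᵐ ω ∂envLaw (d := d) μ, phi v B ω = 0) :
    ∃ r : ℝ≥0∞, r ≠ 0 ∧ ∃ u : ℕ, ∀ n ≥ u, r ≤ ∑ w : Fin n → Fin k,
      ∫⁻ ω, weight v (ext' w) n ω * phi v B (sh (pos v (ext' w) n) ω) ∂envLaw μ := by
  classical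
  obtain ⟨δ, hδ, hδpos⟩ : ∃ δ : ℝ, 0 < δ ∧
      envLaw (d := d) μ {η | ENNReal.ofReal δ + ENNReal.ofReal δ ≤ phi v B η} ≠ 0 := by
    by_contra hcon
    push Not at hcon
    refine hne (ae_iff.2 (measure_mono_null (t := ⋃ m : ℕ, {η | ENNReal.ofReal (1 / (m + 1)) +
      ENNReal.ofReal (1 / (m + 1)) ≤ phi v B η}) ?_
        (measure_iUnion_null fun m => hcon _ Nat.one_div_pos_of_nat)))
    intro η hη
    simp only [Set.mem_iUnion, Set.mem_setOf_eq]
    have h1 : phi v B η ≠ ∞ :=
      ne_top_of_le_ne_top ENNReal.one_ne_top ((min_le_left _ _).trans (quenched_le_one η B))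
    have h2 : 0 < (phi v B η).toReal := ENNReal.toReal_pos hη h1
    obtain ⟨m, hm⟩ := exists_nat_one_div_lt (half_pos h2)
    refine ⟨m, ?_⟩
    rw [← ENNReal.ofReal_add (by positivity) (by positivity), ← ENNReal.ofReal_toReal h1]
    exact ENNReal.ofReal_le_ofReal (by linarith)
  set A : ℕ → ℝ := fun u => (1 + (u : ℝ) * (c / a)) ^ (-a) with hA
  have hca : 0 < c / a := div_pos hg.c_pos (by linarith [hg.one_lt])
  have hA0 : ∀ u, 0 ≤ A u := fun u => Real.rpow_nonneg (by positivity) _
  have hAs : Summable A := decay_summable hg.one_lt hca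
  obtain ⟨u, hu⟩ : ∃ u : ℕ, ∑' i, A (i + (u + 1)) ≤ δ / 4 := by
    have := (tendsto_sum_nat_add A).comp (tendsto_add_atTop_nat 1)
    exact (this.eventually (Iic_mem_nhds (by positivity : (0 : ℝ) < δ / 4))).exists
  obtain ⟨M, hM⟩ := exists_nat_ge (4 * ((u + 1) * ∑' i, A i))
  set r0 := ∫⁻ ω, lowFun v B (ENNReal.ofReal δ) u M ω ∂envLaw μ with hr0
  have hr0top : r0 ≠ ∞ := by
    refine ne_top_of_le_ne_top ENNReal.one_ne_top ?_
    calc r0 ≤ ∫⁻ _, 1 ∂envLaw μ := lintegral_mono fun ω => by
          simp only [lowFun, Set.indicator_apply]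
          split_ifs
          exacts [pow_le_one' (winProb_le_one v u ω) _, zero_le_one]
      _ = 1 := by simp
  have hr0pos : r0 ≠ 0 := by
    intro h
    rw [hr0, lintegral_eq_zero_iff (measurable_lowFun v hB _ u M)] at h
    refine hδpos (measure_eq_zero_iff_ae_notMem.2 ?_)
    have hp : ∀ᵐ ω ∂envLaw (d := d) μ, ∀ z i, (0 : ℝ) < (ω z).1 i :=
      ae_all_iff.2 fun z => ae_all_iff.2 fun i =>
        (measurePreserving_eval_infinitePi (fun _ : Site d => μ) z).quasiMeasurePreserving.ae
          (hpos i)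
    filter_upwards [h, hp] with ω hω hp hmem
    have e : lowFun v B (ENNReal.ofReal δ) u M ω = winProb v u ω ^ (u + M) :=
      Set.indicator_of_mem (show ω ∈ {η | ENNReal.ofReal δ + ENNReal.ofReal δ ≤ phi v B η} from hmem) _
    rw [e, Pi.zero_apply] at hω
    refine pow_ne_zero _ ?_ hω
    simp [winProb, prod_eq_zero_iff, hp]
  set h : ℝ≥0∞ := ENNReal.ofReal (1 / 2)
  refine ⟨ENNReal.ofReal δ * r0 * h, ?_, u, fun n hn => ?_⟩
  · simp [h, hr0pos, hδ]
  obtain ⟨j, rfl⟩ : ∃ j, n = j + u := ⟨n - u, by omega⟩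
  set f : (ℕ → Fin k) → ℝ := fun t =>
    far v g j (j + u) t / δ + (old v j (j + u) t : ℝ) / (M + 1)
  have hfar0 : ∀ t, 0 ≤ far v g j (j + u) t := fun t => sum_nonneg fun i _ => hg.nonneg _
  have hf0 : ∀ t, 0 ≤ f t := fun t => by
    have := hfar0 t
    positivity
  have hw : ∀ w : Fin (j + u) → Fin k,
      ENNReal.ofReal δ * r0 * ∫⁻ ω, weight v (ext' w) (j + u) ω ∂envLaw μ ≤
        ∫⁻ ω, weight v (ext' w) (j + u) ω *
            phi v B (sh (pos v (ext' w) (j + u)) ω) ∂envLaw μ +
          ENNReal.ofReal δ * r0 *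
            ∫⁻ ω, ENNReal.ofReal (wt v ω (ext' w) (j + u) * f (ext' w)) ∂envLaw μ := by
    intro w
    by_cases hgood : far v g j (j + u) (ext' w) ≤ δ ∧ old v j (j + u) (ext' w) ≤ M
    · exact (word_bound v μ hg hdr hB _ hgood.1 hgood.2).trans le_self_add
    · refine le_add_left (mul_le_mul_right (lintegral_mono fun ω => ?_) _)
      rw [weight_eq_wt]
      refine ENNReal.ofReal_le_ofReal (le_mul_of_one_le_right (wt_nonneg v ω _ _) ?_)
      rw [not_and_or, not_le, not_le] at hgood
      have hfar := hfar0 (ext' w)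
      rcases hgood with h1 | h1
      · have : 1 ≤ far v g j (j + u) (ext' w) / δ := by rw [le_div_iff₀ hδ]; linarith
        have : (0 : ℝ) ≤ (old v j (j + u) (ext' w) : ℝ) / (M + 1) := by positivity
        simp only [f]
        linarith
      · have : 1 ≤ (old v j (j + u) (ext' w) : ℝ) / (M + 1) := by
          rw [le_div_iff₀ (by positivity), one_mul]
          exact_mod_cast h1
        have : 0 ≤ far v g j (j + u) (ext' w) / δ := by positivity
        simp only [f]
        linarith
  have hbad : ∀ ω : Site d → Row k, (∀ z, Drift v g a c (ω z)) → avg v ω (j + u) f ≤ 1 / 2 := by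
    intro ω hω
    have hfar : avg v ω (j + u) (far v g j (j + u)) ≤ δ / 4 := by
      calc avg v ω (j + u) (far v g j (j + u))
          = ∑ i ∈ range j, avg v ω (j + u) fun t => g (pos v t i - pos v t (j + u)) :=
            avg_sum v ω _ _ _
        _ ≤ ∑ i ∈ range j, A (j - 1 - i + (u + 1)) := by
            refine sum_le_sum fun i hi => ?_
            have hi' := mem_range.1 hi
            have h1 := avg_dist_le hg hω (i := i) (l := j + u) (n := j + u) (by omega) le_rfl
            rw [show j + u - i = j - 1 - i + (u + 1) by omega] at h1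
            refine le_trans (le_of_eq ?_) h1
            exact congrArg _ (funext fun t => by rw [← hg.even, neg_sub])
        _ = ∑ i ∈ range j, A (i + (u + 1)) := sum_range_reflect (fun i => A (i + (u + 1))) j
        _ ≤ ∑' i, A (i + (u + 1)) :=
            ((summable_nat_add_iff (u + 1)).2 hAs).sum_le_tsum _ fun i _ => hA0 _
        _ ≤ _ := hu
    have hold : avg v ω (j + u) (fun t => (old v j (j + u) t : ℝ)) ≤
        (u + 1) * ∑' i, A i := by
      calc avg v ω (j + u) (fun t => (old v j (j + u) t : ℝ))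
          ≤ avg v ω (j + u)
              (fun t => ∑ l ∈ Icc j (j + u), ∑ i ∈ range j, g (pos v t l - pos v t i)) := by
            refine avg_mono v ω _ fun t => ?_
            rw [sum_comm, old, card_eq_sum_ones, Nat.cast_sum, sum_filter]
            refine sum_le_sum fun i _ => ?_
            split_ifs with hmem
            · obtain ⟨l, hl, hle⟩ := mem_image.1 hmem
              refine le_trans (le_of_eq ?_)
                (single_le_sum (fun l' _ => hg.nonneg (pos v t l' - pos v t i)) hl)
              rw [hle, sub_self, hg.at_zero, Nat.cast_one]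
            · exact sum_nonneg fun l _ => hg.nonneg _
        _ = ∑ l ∈ Icc j (j + u), ∑ i ∈ range j,
              avg v ω (j + u) fun t => g (pos v t l - pos v t i) := by
            rw [avg_sum]
            exact sum_congr rfl fun l _ => avg_sum v ω _ _ _
        _ ≤ ∑ l ∈ Icc j (j + u), ∑' i, A i := by
            refine sum_le_sum fun l hl => ?_
            obtain ⟨hl1, hl2⟩ := mem_Icc.1 hl
            refine le_trans (sum_le_sum fun i hi => avg_dist_le hg hω
              ((mem_range.1 hi).le.trans hl1) hl2) ?_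
            calc ∑ i ∈ range j, A (l - i) = ∑ e ∈ (range j).image (fun i => l - i), A e :=
                  (sum_image fun i hi i' hi' h => by
                    have := mem_range.1 hi
                    have := mem_range.1 hi'
                    have h' : l - i = l - i' := h
                    omega).symm
              _ ≤ _ := hAs.sum_le_tsum _ fun i _ => hA0 _
        _ = _ := by
            rw [sum_const, Nat.card_Icc, show j + u + 1 - j = u + 1 by omega, nsmul_eq_mul]
            push_cast
            ring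
    have e : avg v ω (j + u) f = avg v ω (j + u) (far v g j (j + u)) / δ +
        avg v ω (j + u) (fun t => (old v j (j + u) t : ℝ)) / (M + 1) := by
      simp only [avg, f, mul_add, sum_add_distrib, sum_div, mul_div_assoc]
    rw [e]
    have h1 : avg v ω (j + u) (far v g j (j + u)) / δ ≤ 1 / 4 := by
      rw [div_le_iff₀ hδ]
      linarith
    have h2 : avg v ω (j + u) (fun t => (old v j (j + u) t : ℝ)) / (M + 1) ≤ 1 / 4 := by
      rw [div_le_iff₀ (by positivity)]
      linarith
    linarith
  have htot : ∑ w : Fin (j + u) → Fin k,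
      ∫⁻ ω, ENNReal.ofReal (wt v ω (ext' w) (j + u) * f (ext' w)) ∂envLaw μ ≤ h := by
    rw [← lintegral_finsetSum _ fun w _ => ?_]
    · calc ∫⁻ ω, ∑ w : Fin (j + u) → Fin k,
            ENNReal.ofReal (wt v ω (ext' w) (j + u) * f (ext' w)) ∂envLaw μ
          ≤ ∫⁻ _, h ∂envLaw μ := by
            refine lintegral_mono_ae ?_
            filter_upwards [ae_drift v μ hdr] with ω hω
            rw [← ENNReal.ofReal_sum_of_nonneg fun w _ => mul_nonneg (wt_nonneg v ω _ _) (hf0 _)]
            exact ENNReal.ofReal_le_ofReal (hbad ω hω)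
        _ = h := by simp
    · have : (fun ω => ENNReal.ofReal (wt v ω (ext' w) (j + u) * f (ext' w))) =
          fun ω => weight v (ext' w) (j + u) ω * ENNReal.ofReal (f (ext' w)) := by
        funext ω
        rw [weight_eq_wt, ENNReal.ofReal_mul (wt_nonneg v ω _ _)]
      rw [this]
      exact (measurable_weight v _ _).mul_const _
  have hmain := sum_le_sum (s := univ) fun w _ => hw w
  rw [← mul_sum, sum_mass, mul_one, sum_add_distrib, ← mul_sum] at hmain
  have h2 : ENNReal.ofReal δ * r0 * h + ENNReal.ofReal δ * r0 * h = ENNReal.ofReal δ * r0 := by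
    rw [← mul_add, ← ENNReal.ofReal_add (by norm_num) (by norm_num)]
    norm_num
  refine (ENNReal.add_le_add_iff_right (a := ENNReal.ofReal δ * r0 * h)
    (ENNReal.mul_ne_top (ENNReal.mul_ne_top ENNReal.ofReal_ne_top hr0top)
      ENNReal.ofReal_ne_top)).1 ?_
  rw [h2]
  exact hmain.trans (add_le_add le_rfl (mul_le_mul_right htot _))

theorem phi_ae_zero (hg : Super g a c) (hdr : ∀ᵐ p ∂μ, Drift v g a c p)
    (hpos : ∀ i, ∀ᵐ p ∂μ, (0 : ℝ) < p.1 i) {B : Set (ℕ → Fin k)} (hB : MeasurableSet B)
    (hinv : ∀ t, t ∈ B ↔ (fun i => t (i + 1)) ∈ B) :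
    ∀ᵐ ω ∂envLaw (d := d) μ, phi v B ω = 0 := by
  by_contra hne
  obtain ⟨r, hr, u, hlow⟩ := exists_lower v μ hg hdr hpos hB hne
  obtain ⟨e, he, her⟩ : ∃ e : ℝ, 0 < e ∧ ENNReal.ofReal e < r := by
    obtain ⟨q, h1, h2⟩ := ENNReal.lt_iff_exists_nnreal_btwn.1 (pos_iff_ne_zero.2 hr)
    exact ⟨q, by exact_mod_cast h1, by rwa [ENNReal.ofReal_coe_nnreal]⟩
  have hd : (law v μ).MeasureDense (measurableCylinders fun _ : ℕ => Fin k) :=
    Measure.MeasureDense.of_generateFrom_isSetAlgebra_finite _ isSetAlgebra_measurableCylinders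
      generateFrom_measurableCylinders.symm
  obtain ⟨C, hC, hCe⟩ := hd.approx B hB (measure_ne_top _ _) e he
  obtain ⟨S, S', hS', rfl⟩ := (mem_measurableCylinders _).1 hC
  set n := max u (S.sup id + 1)
  have hdep : ∀ t t' : ℕ → Fin k, (∀ i < n, t i = t' i) →
      t ∈ cylinder S S' → t' ∈ cylinder S S' := fun t t' h ht' => by
    have : S.restrict t = S.restrict t' := funext fun i => h i
      (lt_of_lt_of_le (Nat.lt_succ_of_le (le_sup (f := id) i.2)) (le_max_right _ _))
    rw [mem_cylinder] at ht' ⊢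
    rwa [← this]
  have h1 := (hlow n (le_max_left _ _)).trans
    ((phi_mass_le v μ hB hinv (MeasurableSet.cylinder S hS') n hdep).trans hCe.le)
  exact absurd h1 (not_le.2 her)

/-- Shift-invariant events are trivial. -/
theorem zero_one_super (hg : Super g a c) (hdr : ∀ᵐ p ∂μ, Drift v g a c p)
    (hpos : ∀ i, ∀ᵐ p ∂μ, (0 : ℝ) < p.1 i) (hv : ∃ i, v i ≠ 0) {B : Set (ℕ → Fin k)}
    (hB : MeasurableSet B) (hinv : ∀ t, t ∈ B ↔ (fun i => t (i + 1)) ∈ B) :
    law v μ B = 0 ∨ law v μ B = 1 := by
  obtain ⟨i, hi⟩ := hv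
  have hz := phi_ae_zero v μ hg hdr hpos hB hinv
  set E := {ω : Site d → Row k | quenched v ω B = 1} with hEd
  have hEm : MeasurableSet E := measurable_quenched v hB (measurableSet_singleton 1)
  have hstep : sh (v i) ⁻¹' E =ᵐ[envLaw (d := d) μ] E := by
    have h0 : ∀ᵐ ω ∂envLaw (d := d) μ, (0 : ℝ) < (ω 0).1 i :=
      (measurePreserving_eval_infinitePi (fun _ : Site d => μ) 0).quasiMeasurePreserving.ae (hpos i)
    have hz' := (measurePreserving_sh μ (v i)).quasiMeasurePreserving.ae hz
    filter_upwards [hz, hz', h0] with ω hω hω' hp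
    have hle : ∀ B' : Set (ℕ → Fin k), MeasurableSet B' →
        (∀ t, t ∈ B' ↔ (fun l => t (l + 1)) ∈ B') →
        quenched v ω B' = 0 → quenched v (sh (v i) ω) B' = 0 := by
      intro B' hB' hinv' h
      have h1 : quenched v ω {t | (∀ l < 1, t l = i) ∧ (fun l => t (1 + l)) ∈ B'} = 0 :=
        measure_mono_null (fun u hu => (shift_invariant hinv' 1 _).1 hu.2) h
      rw [quenched_prefix v ω (fun _ => i) 1 hB', weight_one, mul_eq_zero] at h1
      rcases h1 with h1 | h1
      · exact absurd h1 (ENNReal.ofReal_pos.2 hp).ne'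
      · have e : sh (v i) ω = fun z => ω (pos v (fun _ => i) 1 + z) := by
          funext z
          simp [sh, pos]
        rw [e]
        exact h1
    have hc := fun t => not_congr (hinv t)
    show (quenched v (sh (v i) ω) B = 1) = (quenched v ω B = 1)
    rcases min_eq_bot.1 hω with h | h
    · have h' : quenched v ω B = 0 := h
      rw [h', hle B hB hinv h']
    · have h' : quenched v ω Bᶜ = 0 := h
      have e1 := quenched_add_compl v ω hB
      have e2 := quenched_add_compl v (sh (v i) ω) hB
      rw [h', add_zero] at e1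
      rw [hle Bᶜ hB.compl hc h', add_zero] at e2
      rw [e1, e2]
  have hiter : ∀ m : ℕ, sh (m • v i) ⁻¹' E =ᵐ[envLaw (d := d) μ] E := fun m => by
    induction m with
    | zero =>
      have : sh (k := k) (0 • v i) = id := by
        funext ω z
        simp [sh]
      rw [this]
      rfl
    | succ m ih =>
      have e : sh (k := k) ((m + 1) • v i) = sh (v i) ∘ sh (m • v i) := by
        funext ω z
        simp only [sh, Function.comp_apply, succ_nsmul, add_assoc]
      rw [e, Set.preimage_comp]
      exact ((measurePreserving_sh μ (m • v i)).quasiMeasurePreserving.preimage_ae_eq hstep).trans ih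
  have hlaw : law v μ B = envLaw μ E := by
    rw [law_apply v μ hB, ← lintegral_indicator_one hEm]
    refine lintegral_congr_ae ?_
    filter_upwards [hz] with ω hω
    simp only [Set.indicator_apply, hEd, Set.mem_setOf_eq, Pi.one_apply]
    split_ifs with h
    · exact h
    · rcases min_eq_bot.1 hω with h' | h'
      · exact h'
      · have := quenched_add_compl v ω hB
        rw [show quenched v ω Bᶜ = 0 from h', add_zero] at this
        exact absurd this h
  rw [hlaw]
  refine zero_or_one_of_shift_invariant μ hEm fun F => ?_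
  classical
  obtain ⟨j, hj⟩ : ∃ j, v i j ≠ 0 := Function.ne_iff.1 hi
  have hinj : Function.Injective fun m : ℕ => m • v i := fun m m' h => by
    have := congrFun h j
    simp only [Pi.smul_apply, smul_eq_mul, nsmul_eq_mul] at this
    exact_mod_cast mul_right_cancel₀ hj this
  obtain ⟨_, ⟨m, rfl⟩, hmem⟩ := (Set.infinite_range_of_injective hinj).exists_notMem_finset
    ((F ×ˢ F).image fun p => p.1 - p.2)
  refine ⟨fun z => m • v i + z, add_right_injective _, fun z hz hz' => hmem (mem_image.2
    ⟨(m • v i + z, z), mem_product.2 ⟨hz', hz⟩, by simp⟩), ?_⟩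
  exact hiter m

end Vale.Agent.P147.Bal
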