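import Vale.Agent.P147.Bal.Lyapunov
import Vale.Agent.P147.Bal.Main
import Vale.Agent.P147.Cond.SymDefs

/-!
P147: zero-one law for laws with enough balanced transverse functionals.
-/

open MeasureTheory Filter Finset

namespace Vale.Agent.P147.Bal

open Vale.Agent.P147.Cond

variable {d k m : ℕ} [NeZero k] (v : Fin k → Site d) (μ : Measure (Row k)) [IsProbabilityMeasure μ]

theorem zero_one_balanced (L : Fin m → (Site d →+ ℝ)) {s κ : ℝ} (hs : s < 1 / 4) (hκ : 0 < κ)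
    (hpos : ∀ i, ∀ᵐ p ∂μ, (0 : ℝ) < p.1 i)
    (hrow : ∀ᵐ p ∂μ, (∀ j, ∑ i, (p.1 i : ℝ) * L j (v i) = 0) ∧
      κ ≤ ∑ i, (p.1 i : ℝ) * ∑ j, L j (v i) ^ 2 ∧
      ∀ x : Fin m → ℝ, ∑ i, (p.1 i : ℝ) * (∑ j, x j * L j (v i)) ^ 2 ≤
        s * (∑ j, x j ^ 2) * ∑ i, (p.1 i : ℝ) * ∑ j, L j (v i) ^ 2)
    {B : Set (ℕ → Fin k)} (hB : MeasurableSet B)
    (hinv : ∀ t, t ∈ B ↔ (fun i => t (i + 1)) ∈ B) :
    law v μ B = 0 ∨ law v μ B = 1 := by
  set y : Fin k → Fin m → ℝ := fun i j => L j (v i)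
  have hgood : ∀ᵐ p ∂μ, GoodRow y (max s (1 / 8)) κ p.1 := by
    filter_upwards [hrow] with p ⟨h1, h2, h3⟩
    refine ⟨p.2.1, p.2.2, h1, h2, fun x => (h3 x).trans ?_⟩
    have hT : 0 ≤ ∑ i, (p.1 i : ℝ) * sqn (y i) := hκ.le.trans h2
    have := mul_le_mul_of_nonneg_right (mul_le_mul_of_nonneg_right (le_max_left s (1 / 8))
      (sqn_nonneg x)) hT
    exact this
  obtain ⟨a, c0, c, ha, hc0, hc, hdrift⟩ := lyap_drift y (le_max_right s (1 / 8))
    (max_lt hs (by norm_num)) hκ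
  set g : Site d → ℝ := fun x => lyap c0 a fun j => L j x
  have hbase : ∀ x : Fin m → ℝ, 0 ≤ c0 / (c0 + sqn x) ∧ c0 / (c0 + sqn x) ≤ 1 := fun x => by
    have := sqn_nonneg x
    exact ⟨by positivity, (div_le_one (by linarith)).2 (by linarith)⟩
  have hg : Super g a c := by
    refine ⟨ha, hc, fun x => Real.rpow_nonneg (hbase _).1 _, fun x =>
      Real.rpow_le_one (hbase _).1 (hbase _).2 (by linarith), ?_, fun x => ?_⟩
    · simp [g, lyap, sqn, hc0.ne']
    · simp [g, lyap, sqn]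
  have hdr : ∀ᵐ p ∂μ, Drift v g a c p := by
    filter_upwards [hgood] with p hp x
    refine le_trans (le_of_eq (sum_congr rfl fun i _ => ?_)) (hdrift _ hp fun j => L j x)
    simp only [g, y]
    congr 2
    funext j
    exact map_add (L j) x (v i)
  obtain ⟨p, hp⟩ := hgood.exists
  have hv : ∃ i, v i ≠ 0 := by
    by_contra h
    push Not at h
    have := hp.2.2.2.1
    simp [y, sqn, h] at this
    linarith
  exact zero_one_super v μ hg hdr hpos hv hB hinv

theorem escape_zero_one (h : ∀ B : Set (ℕ → Fin k), MeasurableSet B →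
      (∀ t, t ∈ B ↔ (fun i => t (i + 1)) ∈ B) → law v μ B = 0 ∨ law v μ B = 1)
    (l : Fin d → ℝ) : law v μ (Escape v l) = 0 ∨ law v μ (Escape v l) = 1 := by
  rw [escape_eq]
  exact h _ (measurableSet_up v _) (up_invariant v _)

/-- The scaled coordinate functional. -/
noncomputable def coordFun (w : Fin d → ℝ) (j : Fin d) : Site d →+ ℝ where
  toFun x := Real.sqrt (w j) * (x j : ℝ)
  map_zero' := by simp
  map_add' x y := by simp [mul_add]

theorem zero_one_coordinates (hv : UnitSteps v) (w : Fin d → ℝ) (hw : ∀ j, 0 ≤ w j) {s κ : ℝ}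
    (hs : s < 1 / 4) (hκ : 0 < κ) (hpos : ∀ i, ∀ᵐ p ∂μ, (0 : ℝ) < p.1 i)
    (hrow : ∀ᵐ p ∂μ, κ ≤ ∑ j, w j * ∑ i, (p.1 i : ℝ) * (v i j : ℝ) ^ 2 ∧
      ∀ j, w j ≠ 0 → ∑ i, (p.1 i : ℝ) * (v i j : ℝ) = 0 ∧
        w j * ∑ i, (p.1 i : ℝ) * (v i j : ℝ) ^ 2 ≤
          s * ∑ j', w j' * ∑ i, (p.1 i : ℝ) * (v i j' : ℝ) ^ 2)
    {B : Set (ℕ → Fin k)} (hB : MeasurableSet B)
    (hinv : ∀ t, t ∈ B ↔ (fun i => t (i + 1)) ∈ B) :
    law v μ B = 0 ∨ law v μ B = 1 := by
  have hs0 : 0 ≤ s := by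
    obtain ⟨p, h1, h2⟩ := hrow.exists
    by_contra hs0
    rw [not_le] at hs0
    have hneg := mul_neg_of_neg_of_pos hs0 (hκ.trans_le h1)
    have hz : ∀ j, w j = 0 := fun j => by
      by_contra hj
      have := (h2 j hj).2
      have h0 : 0 ≤ w j * ∑ i, (p.1 i : ℝ) * (v i j : ℝ) ^ 2 :=
        mul_nonneg (hw j) (sum_nonneg fun i _ => mul_nonneg (p.2.1 i) (sq_nonneg _))
      linarith
    simp [hz] at h1
    linarith
  refine zero_one_balanced v μ (coordFun w) hs hκ hpos ?_ hB hinv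
  filter_upwards [hrow] with p ⟨h1, h2⟩
  set q : Fin d → ℝ := fun j => ∑ i, (p.1 i : ℝ) * (v i j : ℝ) ^ 2
  have hsq : ∀ j, Real.sqrt (w j) ^ 2 = w j := fun j => Real.sq_sqrt (hw j)
  have hT : ∑ i, (p.1 i : ℝ) * ∑ j, coordFun w j (v i) ^ 2 = ∑ j, w j * q j := by
    simp only [q, coordFun, AddMonoidHom.coe_mk, ZeroHom.coe_mk, mul_sum]
    rw [sum_comm]
    refine sum_congr rfl fun j _ => sum_congr rfl fun i _ => ?_
    rw [mul_pow, hsq]
    ring
  refine ⟨fun j => ?_, by rw [hT]; exact h1, fun x => ?_⟩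
  · rcases eq_or_ne (w j) 0 with h | h
    · simp [coordFun, h]
    · calc ∑ i, (p.1 i : ℝ) * coordFun w j (v i)
          = Real.sqrt (w j) * ∑ i, (p.1 i : ℝ) * (v i j : ℝ) := by
            rw [mul_sum]
            exact sum_congr rfl fun i _ => by
              simp only [coordFun, AddMonoidHom.coe_mk, ZeroHom.coe_mk]; ring
        _ = 0 := by rw [(h2 j h).1, mul_zero]
  · have hone : ∀ i, (∑ j, x j * coordFun w j (v i)) ^ 2 =
        ∑ j, x j ^ 2 * (w j * (v i j : ℝ) ^ 2) := fun i => by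
      obtain ⟨j0, e, -, he⟩ : ∃ (j : Fin d) (e : ℤ), (e = 1 ∨ e = -1) ∧ v i = Pi.single j e := by
        have : v i ∈ Set.range v := ⟨i, rfl⟩
        rw [hv.2] at this
        exact this
      rw [sum_eq_single j0, sum_eq_single j0]
      · simp only [coordFun, AddMonoidHom.coe_mk, ZeroHom.coe_mk, mul_pow, hsq]
      · intro j _ hj
        simp [he, hj]
      · simp
      · intro j _ hj
        simp [coordFun, he, hj]
      · simp
    calc ∑ i, (p.1 i : ℝ) * (∑ j, x j * coordFun w j (v i)) ^ 2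
        = ∑ j, x j ^ 2 * (w j * q j) := by
          simp only [hone, q, mul_sum]
          rw [sum_comm]
          exact sum_congr rfl fun j _ => sum_congr rfl fun i _ => by ring
      _ ≤ ∑ j, x j ^ 2 * (s * ∑ j', w j' * q j') := by
          refine sum_le_sum fun j _ => mul_le_mul_of_nonneg_left ?_ (sq_nonneg _)
          rcases eq_or_ne (w j) 0 with h | h
          · rw [h, zero_mul]
            exact mul_nonneg hs0 (hκ.le.trans h1)
          · exact (h2 j h).2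
      _ = _ := by
          rw [hT, ← sum_mul]
          ring

end Vale.Agent.P147.Bal
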