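import Vale.Agent.P147.Bal.Main

/-!
P147: zero-one law when the randomness of a row is confined to one axis.

The quenched escape probability is monotone along the axis: the running supremum along the axis of
a subharmonic function is again subharmonic, because the walk leaves every line almost surely.
-/

open MeasureTheory Filter Finset
open scoped ENNReal Topology symmDiff

namespace Vale.Agent.P147.Bal

open Vale.Agent.P147.Cond

variable {d k : ℕ} [NeZero k] (v : Fin k → Site d)

/-- An invariant event of the environment is trivial. -/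
theorem env_zero_one (μ : Measure (Row k)) [IsProbabilityMeasure μ] {a : Site d} (ha : a ≠ 0)
    {E : Set (Site d → Row k)} (hE : MeasurableSet E)
    (hinv : sh a ⁻¹' E =ᵐ[envLaw (d := d) μ] E) :
    envLaw (d := d) μ E = 0 ∨ envLaw (d := d) μ E = 1 := by
  classical
  have hiter : ∀ m : ℕ, sh (m • a) ⁻¹' E =ᵐ[envLaw (d := d) μ] E := fun m => by
    induction m with
    | zero =>
      have : sh (k := k) (0 • a) = id := by
        funext ω z
        simp [sh]
      rw [this]
      rfl
    | succ m ih =>
      have e : sh (k := k) ((m + 1) • a) = sh a ∘ sh (m • a) := by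
        funext ω z
        simp only [sh, Function.comp_apply, succ_nsmul, add_assoc]
      rw [e, Set.preimage_comp]
      exact ((measurePreserving_sh μ (m • a)).quasiMeasurePreserving.preimage_ae_eq hinv).trans ih
  refine zero_or_one_of_shift_invariant μ hE fun F => ?_
  obtain ⟨j, hj⟩ : ∃ j, a j ≠ 0 := Function.ne_iff.1 ha
  have hinj : Function.Injective fun m : ℕ => m • a := fun m m' h => by
    have := congrFun h j
    simp only [Pi.smul_apply, nsmul_eq_mul] at this
    exact_mod_cast mul_right_cancel₀ hj this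
  obtain ⟨_, ⟨m, rfl⟩, hmem⟩ := (Set.infinite_range_of_injective hinj).exists_notMem_finset
    ((F ×ˢ F).image fun p => p.1 - p.2)
  exact ⟨fun z => m • a + z, add_right_injective _, fun z hz hz' => hmem (mem_image.2
    ⟨(m • a + z, z), mem_product.2 ⟨hz', hz⟩, by simp⟩), hiter m⟩

/-- Quenched probability as a real number. -/
noncomputable def qr (ω : Site d → Row k) (B : Set (ℕ → Fin k)) : ℝ := (quenched v ω B).toReal

theorem qr_nonneg (ω : Site d → Row k) (B : Set (ℕ → Fin k)) : 0 ≤ qr v ω B :=
  ENNReal.toReal_nonneg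

theorem qr_le_one (ω : Site d → Row k) (B : Set (ℕ → Fin k)) : qr v ω B ≤ 1 := by
  rw [qr, ← ENNReal.toReal_one]
  exact ENNReal.toReal_mono ENNReal.one_ne_top (quenched_le_one ω B)

theorem ofReal_qr (ω : Site d → Row k) (B : Set (ℕ → Fin k)) :
    ENNReal.ofReal (qr v ω B) = quenched v ω B :=
  ENNReal.ofReal_toReal (ne_top_of_le_ne_top ENNReal.one_ne_top (quenched_le_one ω B))

/-- The first step decomposition. -/
theorem qr_step (ω : Site d → Row k) {B : Set (ℕ → Fin k)} {Bi : Fin k → Set (ℕ → Fin k)}
    (hm : ∀ i, MeasurableSet (Bi i)) (hB : ∀ t, t ∈ B ↔ (fun l => t (1 + l)) ∈ Bi (t 0)) :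
    qr v ω B = ∑ i, (ω 0).1 i * qr v (sh (v i) ω) (Bi i) := by
  classical
  set P : Fin k → Set (ℕ → Fin k) := fun i =>
    {t | (∀ l < 1, t l = i) ∧ (fun l => t (1 + l)) ∈ Bi i}
  have e : B = ⋃ i ∈ (univ : Finset (Fin k)), P i := by
    ext t
    simp only [P, Set.mem_iUnion, exists_prop, mem_univ, true_and, Set.mem_setOf_eq]
    constructor
    · exact fun h => ⟨t 0, fun l hl => by rw [Nat.lt_one_iff.1 hl], (hB t).1 h⟩
    · rintro ⟨i, h1, h2⟩
      rw [hB, h1 0 one_pos]
      exact h2
  have hdis : ((univ : Finset (Fin k)) : Set (Fin k)).PairwiseDisjoint P := by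
    intro i _ j _ hij
    refine Set.disjoint_left.2 fun t hi hj => hij ?_
    rw [← hi.1 0 one_pos, ← hj.1 0 one_pos]
  have hms : Measurable fun u : ℕ → ℝ => steps v ω u :=
    Measurable.comp (g := fun z : (Site d → Row k) × (ℕ → ℝ) => steps v z.1 z.2)
      (f := fun u : ℕ → ℝ => (ω, u)) (measurable_steps v) (measurable_const.prodMk measurable_id)
  have hq : quenched v ω B = ∑ i, quenched v ω (P i) := by
    rw [e]
    refine Eq.trans ?_ (measure_biUnion_finset (fun i hi j hj hij => (hdis hi hj hij).preimage _)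
      fun i _ => hms (measurableSet_prefix_inter 1 _ (hm i)))
    exact congrArg uLaw (by ext u; simp)
  rw [qr, hq, ENNReal.toReal_sum fun i _ => ne_top_of_le_ne_top ENNReal.one_ne_top
    (quenched_le_one ω _)]
  refine sum_congr rfl fun i _ => ?_
  have e2 : sh (v i) ω = fun z => ω (pos v (fun _ => i) 1 + z) := by
    funext z
    simp [sh, pos]
  rw [quenched_prefix v ω (fun _ => i) 1 (hm i), weight_one, ENNReal.toReal_mul,
    ENNReal.toReal_ofReal ((ω 0).2.1 i), e2]
  rfl

omit [NeZero k] in
theorem sh_sh (x y : Site d) (ω : Site d → Row k) : sh y (sh x ω) = sh (x + y) ω := by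
  funext z
  simp [sh, add_assoc]

omit [NeZero k] in
theorem sh_zero_apply (x : Site d) (ω : Site d → Row k) : sh x ω 0 = ω x := by simp [sh]

/-- The averaging operator of the walk. -/
def op (ω : Site d → Row k) (f : Site d → ℝ) (x : Site d) : ℝ :=
  ∑ i, (ω x).1 i * f (x + v i)

omit [NeZero k] in
theorem op_mono (ω : Site d → Row k) {f f' : Site d → ℝ} (h : ∀ x, f x ≤ f' x) (x : Site d) :
    op v ω f x ≤ op v ω f' x :=
  sum_le_sum fun i _ => mul_le_mul_of_nonneg_left (h _) ((ω x).2.1 i)

section Line

variable (a : Site d)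

/-- The step stays on the axis. -/
def OnAxis (i : Fin k) : Prop := v i = a ∨ v i = -a

/-- The walk stays on the axis for `n` steps. -/
def AxisTo (n : ℕ) : Set (ℕ → Fin k) := {t | ∀ i < n, OnAxis v a (t i)}

/-- The walk never leaves the axis. -/
def AxisForever : Set (ℕ → Fin k) := {t | ∀ i, OnAxis v a (t i)}

theorem measurableSet_axisTo (n : ℕ) : MeasurableSet (AxisTo v a n) :=
  measurableSet_of_prefix n fun t t' h ht i hi => h i hi ▸ ht i hi

/-- An environment in which the randomness of each row is along the axis only and in which the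
walk leaves every line. -/
structure GoodEnv (r : Fin k → ℝ) (ω : Site d → Row k) : Prop where
  ratio : ∀ z i, ¬ OnAxis v a i →
    (ω z).1 i = r i * (∑ j ∈ univ.filter (fun j => v j ≠ a ∧ v j ≠ -a), (ω z).1 j)
  r_nonneg : ∀ i, ¬ OnAxis v a i → 0 ≤ r i
  leaves : ∀ x, quenched v (sh x ω) (AxisForever v a) = 0

/-- Running supremum along the axis. -/
noncomputable def star (u : Site d → ℝ) (x : Site d) : ℝ := ⨆ j : ℕ, u (x - j • a)

theorem bdd_star {u : Site d → ℝ} (hu : ∀ x, u x ≤ 1) (x : Site d) :
    BddAbove (Set.range fun j : ℕ => u (x - j • a)) :=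
  ⟨1, by rintro _ ⟨j, rfl⟩; exact hu _⟩

theorem le_star {u : Site d → ℝ} (hu : ∀ x, u x ≤ 1) (x : Site d) (j : ℕ) :
    u (x - j • a) ≤ star a u x :=
  le_ciSup (bdd_star a hu x) j

theorem self_le_star {u : Site d → ℝ} (hu : ∀ x, u x ≤ 1) (x : Site d) : u x ≤ star a u x := by
  simpa using le_star a hu x 0

theorem star_mono {u : Site d → ℝ} (hu : ∀ x, u x ≤ 1) (x : Site d) :
    star a u x ≤ star a u (x + a) :=
  ciSup_le fun j => by
    have := le_star a hu (x + a) (j + 1)
    rwa [show x + a - (j + 1) • a = x - j • a by rw [succ_nsmul]; abel] at this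

variable {v a}

theorem axisTo_tendsto {r : Fin k → ℝ} {ω : Site d → Row k} (hω : GoodEnv v a r ω) (x : Site d) :
    Tendsto (fun n => qr v (sh x ω) (AxisTo v a n)) atTop (𝓝 0) := by
  have hms : Measurable fun u : ℕ → ℝ => steps v (sh x ω) u :=
    Measurable.comp (g := fun z : (Site d → Row k) × (ℕ → ℝ) => steps v z.1 z.2)
      (f := fun u : ℕ → ℝ => (sh x ω, u)) (measurable_steps v)
      (measurable_const.prodMk measurable_id)
  have h := tendsto_measure_iInter_atTop (μ := uLaw)
    (s := fun n => {u | steps v (sh x ω) u ∈ AxisTo v a n})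
    (fun n => (hms (measurableSet_axisTo v a n)).nullMeasurableSet)
    (fun m n hmn u hu i hi => hu i (lt_of_lt_of_le hi hmn)) ⟨0, measure_ne_top _ _⟩
  have e : (⋂ n, {u | steps v (sh x ω) u ∈ AxisTo v a n}) =
      {u | steps v (sh x ω) u ∈ AxisForever v a} := by
    ext u
    simp only [AxisTo, AxisForever, Set.mem_iInter, Set.mem_setOf_eq]
    exact ⟨fun h i => h (i + 1) i i.lt_succ_self, fun h _ i _ => h i⟩
  rw [e, show uLaw {u | steps v (sh x ω) u ∈ AxisForever v a} = 0 from hω.leaves x] at h
  have := (ENNReal.tendsto_toReal ENNReal.zero_ne_top).comp h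
  exact this

open Classical in
theorem axisTo_succ (ω : Site d → Row k) (x : Site d) (n : ℕ) :
    qr v (sh x ω) (AxisTo v a (n + 1)) =
      ∑ i ∈ univ.filter (OnAxis v a), (ω x).1 i * qr v (sh (x + v i) ω) (AxisTo v a n) := by
  rw [qr_step v (sh x ω) (Bi := fun i => if OnAxis v a i then AxisTo v a n else ∅)
    (fun i => by split_ifs; exacts [measurableSet_axisTo v a n, MeasurableSet.empty]) ?_,
    sum_filter]
  · refine sum_congr rfl fun i _ => ?_
    rw [sh_zero_apply, sh_sh]
    split_ifs <;> simp [qr, quenched]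
  · intro t
    show (∀ i < n + 1, OnAxis v a (t i)) ↔ _
    split_ifs with h0
    · refine ⟨fun h i hi => h (1 + i) (by omega), fun h i hi => ?_⟩
      rcases i with _ | i
      · exact h0
      · show OnAxis v a (t (i + 1))
        rw [add_comm i 1]
        exact h i (by omega)
    · simp only [Set.mem_empty_iff_false, iff_false]
      exact fun h => h0 (h 0 n.succ_pos)

open Classical in
/-- The running supremum of a subharmonic function along the axis is subharmonic. -/
theorem star_sub {r : Fin k → ℝ} {ω : Site d → Row k} (hω : GoodEnv v a r ω) {u : Site d → ℝ}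
    {D : Set (Site d)} (hD : ∀ x, x ∉ D → x - a ∉ D) (hu0 : ∀ x, 0 ≤ u x) (hu1 : ∀ x, u x ≤ 1)
    (hoff : ∀ x, x ∉ D → u x = 0) (hon : ∀ x ∈ D, u x ≤ op v ω u x) :
    (∀ x, x ∉ D → star a u x = 0) ∧ ∀ x ∈ D, star a u x ≤ op v ω (star a u) x := by
  refine ⟨fun x hx => ?_, fun x hx => ?_⟩
  · have hall : ∀ j : ℕ, x - j • a ∉ D := fun j => by
      induction j with
      | zero => simpa using hx
      | succ j ih => rw [succ_nsmul, ← sub_sub]; exact hD _ ih
    simp only [star, fun j => hoff _ (hall j), ciSup_const]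
  set T := univ.filter (fun j => v j ≠ a ∧ v j ≠ -a)
  have hcompl : univ.filter (fun i => ¬ OnAxis v a i) = T := by
    ext i; simp [T, OnAxis]
  set ρ := ∑ i ∈ T, r i * star a u (x + v i)
  have hT : ∀ i ∈ T, ¬ OnAxis v a i := fun i hi => by
    rw [← hcompl] at hi
    exact (mem_filter.1 hi).2
  have hout : ∀ y, ∀ f : Site d → ℝ,
      ∑ i ∈ T, (ω y).1 i * f (y + v i) =
        (∑ i ∈ T, (ω y).1 i) * ∑ i ∈ T, r i * f (y + v i) := fun y f => by
    rw [mul_sum]
    refine sum_congr rfl fun i hi => ?_
    rw [hω.ratio y i (hT i hi)]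
    ring
  have htot : ∀ y, ∑ i ∈ univ.filter (OnAxis v a), (ω y).1 i + ∑ i ∈ T, (ω y).1 i = 1 :=
    fun y => by rw [← hcompl, sum_filter_add_sum_filter_not]; exact (ω y).2.2
  have hop : ∀ y (f : Site d → ℝ), op v ω f y =
      ∑ i ∈ univ.filter (OnAxis v a), (ω y).1 i * f (y + v i) +
        (∑ i ∈ T, (ω y).1 i) * ∑ i ∈ T, r i * f (y + v i) := fun y f => by
    rw [← hout, ← hcompl, sum_filter_add_sum_filter_not]
    rfl
  set c := max ρ (u x)
  have hc0 : 0 ≤ c := (hu0 x).trans (le_max_right _ _)
  have hbound : ∀ (n j : ℕ), u (x - j • a) ≤ c + qr v (sh (x - j • a) ω) (AxisTo v a n) := by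
    intro n
    induction n with
    | zero =>
      intro j
      have : qr v (sh (x - j • a) ω) (AxisTo v a 0) = 1 := by
        simp [qr, quenched, AxisTo]
      linarith [hu1 (x - j • a)]
    | succ n ih =>
      intro j
      set y := x - j • a with hy
      have hN := qr_nonneg v (sh y ω) (AxisTo v a (n + 1))
      rcases j with _ | j
      · have : y = x := by simp [hy]
        rw [this] at hN ⊢
        linarith [le_max_right ρ (u x)]
      by_cases hyD : y ∈ D
      · refine (hon y hyD).trans ?_
        rw [hop, axisTo_succ]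
        have h1 : ∀ i ∈ univ.filter (OnAxis v a), (ω y).1 i * u (y + v i) ≤
            (ω y).1 i * c + (ω y).1 i * qr v (sh (y + v i) ω) (AxisTo v a n) := fun i hi => by
          rw [← mul_add]
          refine mul_le_mul_of_nonneg_left ?_ ((ω y).2.1 i)
          rcases (mem_filter.1 hi).2 with h | h
          · have e : y + v i = x - j • a := by rw [hy, h, succ_nsmul]; abel
            rw [e]; exact ih j
          · have e : y + v i = x - (j + 2) • a := by
              rw [hy, h, succ_nsmul, succ_nsmul, succ_nsmul]; abel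
            rw [e]; exact ih (j + 2)
        have h2 : ∑ i ∈ T, r i * u (y + v i) ≤ c := by
          refine le_trans (sum_le_sum fun i hi =>
            mul_le_mul_of_nonneg_left ?_ (hω.r_nonneg i (hT i hi))) (le_max_left _ _)
          have := le_star a hu1 (x + v i) (j + 1)
          rwa [show x + v i - (j + 1) • a = y + v i by rw [hy]; abel] at this
        have h3 := sum_le_sum h1
        rw [sum_add_distrib, ← sum_mul] at h3
        have h4 := mul_le_mul_of_nonneg_left h2
          (sum_nonneg fun i (_ : i ∈ T) => (ω y).2.1 i)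
        have h5 : (∑ i ∈ univ.filter (OnAxis v a), (ω y).1 i) * c +
            (∑ i ∈ T, (ω y).1 i) * c = c := by rw [← add_mul, htot, one_mul]
        linarith
      · rw [hoff y hyD]
        linarith
  have hsup : star a u x ≤ c := ciSup_le fun j => by
    have h := (axisTo_tendsto hω (x - j • a)).const_add c
    rw [add_zero] at h
    exact ge_of_tendsto' h fun n => hbound n j
  by_cases hmax : star a u x ≤ u x
  · exact (hmax.trans (hon x hx)).trans (op_mono v ω (self_le_star a hu1) x)
  · have hρ : star a u x ≤ ρ := (le_max_iff.1 hsup).resolve_right hmax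
    have hdown : star a u x ≤ star a u (x - a) := by
      by_contra hlt
      push Not at hlt hmax
      refine lt_irrefl (star a u x) (lt_of_le_of_lt (ciSup_le fun j => ?_)
        (max_lt hmax hlt))
      rcases j with _ | j
      · simp
      · refine le_trans ?_ (le_max_right _ _)
        have := le_star a hu1 (x - a) j
        rwa [show x - a - j • a = x - (j + 1) • a by rw [succ_nsmul]; abel] at this
    rw [hop]
    have h1 : (∑ i ∈ univ.filter (OnAxis v a), (ω x).1 i) * star a u x ≤
        ∑ i ∈ univ.filter (OnAxis v a), (ω x).1 i * star a u (x + v i) := by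
      rw [sum_mul]
      refine sum_le_sum fun i hi => mul_le_mul_of_nonneg_left ?_ ((ω x).2.1 i)
      rcases (mem_filter.1 hi).2 with h | h <;> rw [h]
      · exact star_mono a hu1 x
      · rwa [← sub_eq_add_neg]
    have h2 : (∑ i ∈ T, (ω x).1 i) * star a u x ≤ (∑ i ∈ T, (ω x).1 i) * ρ :=
      mul_le_mul_of_nonneg_left hρ (sum_nonneg fun i _ => (ω x).2.1 i)
    have h5 : (∑ i ∈ univ.filter (OnAxis v a), (ω x).1 i) * star a u x +
        (∑ i ∈ T, (ω x).1 i) * star a u x = star a u x := by rw [← add_mul, htot, one_mul]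
    linarith

end Line

section Seeds

variable (ht : Site d →+ ℝ)

/-- The walk keeps above a level. -/
def stayAbove (c : ℝ) : Set (ℕ → Fin k) := {t | ∀ n, c ≤ ht (pos v t n)}

/-- The walk keeps above a level up to time `n`. -/
def stayAboveTo (c : ℝ) (n : ℕ) : Set (ℕ → Fin k) := {t | ∀ i ≤ n, c ≤ ht (pos v t i)}

/-- The walk keeps above a level from time `j` on. -/
def aboveFrom (c : ℝ) (j : ℕ) : Set (ℕ → Fin k) := {t | ∀ i ≥ j, c ≤ ht (pos v t i)}

/-- The walk finally keeps above a level. -/
def aboveEv (c : ℝ) : Set (ℕ → Fin k) := ⋃ j, aboveFrom v ht c j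

theorem measurableSet_aboveFrom (c : ℝ) (j : ℕ) : MeasurableSet (aboveFrom v ht c j) := by
  simp only [aboveFrom, Set.setOf_forall]
  exact .iInter fun n => .iInter fun _ =>
    measurableSet_le measurable_const (measurable_height v ht n)

theorem measurableSet_aboveEv (c : ℝ) : MeasurableSet (aboveEv v ht c) :=
  .iUnion fun j => measurableSet_aboveFrom v ht c j

theorem measurableSet_stayAboveTo (c : ℝ) (n : ℕ) : MeasurableSet (stayAboveTo v ht c n) :=
  measurableSet_of_prefix n fun t t' h hs i hi => by rw [← pos_congr v h hi]; exact hs i hi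

theorem measurableSet_stayAbove (c : ℝ) : MeasurableSet (stayAbove v ht c) := by
  simp only [stayAbove, Set.setOf_forall]
  exact .iInter fun n => measurableSet_le measurable_const (measurable_height v ht n)

theorem height_one_add (t : ℕ → Fin k) (i : ℕ) :
    ht (pos v t (1 + i)) = ht (v (t 0)) + ht (pos v (fun l => t (1 + l)) i) := by
  rw [pos_add, map_add]
  simp [pos]

variable {v ht}

/-- Quenched probability of keeping above `M` from `x`. -/
noncomputable def uStay (v : Fin k → Site d) (ht : Site d →+ ℝ) (ω : Site d → Row k) (M : ℝ)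
    (x : Site d) : ℝ := qr v (sh x ω) (stayAbove v ht (M - ht x))

/-- Quenched probability of finally keeping above `M` from `x`. -/
noncomputable def uEv (v : Fin k → Site d) (ht : Site d →+ ℝ) (ω : Site d → Row k) (M : ℝ)
    (x : Site d) : ℝ := qr v (sh x ω) (aboveEv v ht (M - ht x))

theorem uStay_off {ω : Site d → Row k} {M : ℝ} {x : Site d} (h : ht x < M) :
    uStay v ht ω M x = 0 := by
  have : stayAbove v ht (M - ht x) = ∅ := by
    refine Set.eq_empty_of_forall_notMem fun t ht' => ?_
    have h0 := ht' 0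
    simp [pos] at h0
    linarith
  simp [uStay, qr, quenched, this]

theorem uStay_on {ω : Site d → Row k} {M : ℝ} {x : Site d} (h : M ≤ ht x) :
    uStay v ht ω M x = op v ω (uStay v ht ω M) x := by
  rw [uStay, qr_step v (sh x ω) (Bi := fun i => stayAbove v ht (M - ht (x + v i)))
    (fun i => measurableSet_stayAbove v ht _) fun t => ?_]
  · refine sum_congr rfl fun i _ => ?_
    rw [sh_zero_apply, sh_sh]
    rfl
  · simp only [stayAbove, Set.mem_setOf_eq, map_add]
    constructor
    · intro hs n
      have := hs (1 + n)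
      rw [height_one_add] at this
      linarith
    · intro hs n
      rcases n with _ | n
      · simp [pos, h]
      · have := hs n
        rw [add_comm n 1, height_one_add]
        linarith

theorem le_uStay {ω : Site d → Row k} {M : ℝ} {f : Site d → ℝ} (hf1 : ∀ x, f x ≤ 1)
    (hoff : ∀ x, ht x < M → f x = 0) (hon : ∀ x, M ≤ ht x → f x ≤ op v ω f x) (x : Site d) :
    f x ≤ uStay v ht ω M x := by
  have hto : ∀ n x, f x ≤ qr v (sh x ω) (stayAboveTo v ht (M - ht x) n) := by
    intro n
    induction n with
    | zero =>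
      intro x
      rcases lt_or_ge (ht x) M with h | h
      · rw [hoff x h]; exact qr_nonneg v _ _
      · have : stayAboveTo v ht (M - ht x) 0 = Set.univ := by
          ext t
          simp [stayAboveTo, pos, h]
        refine (hf1 x).trans (le_of_eq ?_)
        simp [qr, quenched, this]
    | succ n ih =>
      intro x
      rcases lt_or_ge (ht x) M with h | h
      · rw [hoff x h]; exact qr_nonneg v _ _
      rw [qr_step v (sh x ω) (Bi := fun i => stayAboveTo v ht (M - ht (x + v i)) n)
        (fun i => measurableSet_stayAboveTo v ht _ _) fun t => ?_]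
      · refine (hon x h).trans (sum_le_sum fun i _ => ?_)
        rw [sh_zero_apply, sh_sh]
        exact mul_le_mul_of_nonneg_left (ih _) ((ω x).2.1 i)
      · simp only [stayAboveTo, Set.mem_setOf_eq, map_add]
        constructor
        · intro hs i hi
          have := hs (1 + i) (by omega)
          rw [height_one_add] at this
          linarith
        · intro hs i hi
          rcases i with _ | i
          · simp [pos, h]
          · have := hs i (by omega)
            rw [add_comm i 1, height_one_add]
            linarith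
  set c := M - ht x
  have hms : Measurable fun u : ℕ → ℝ => steps v (sh x ω) u :=
    Measurable.comp (g := fun z : (Site d → Row k) × (ℕ → ℝ) => steps v z.1 z.2)
      (f := fun u : ℕ → ℝ => (sh x ω, u)) (measurable_steps v)
      (measurable_const.prodMk measurable_id)
  have hlim := tendsto_measure_iInter_atTop (μ := uLaw)
    (s := fun n => {u | steps v (sh x ω) u ∈ stayAboveTo v ht c n})
    (fun n => (hms (measurableSet_stayAboveTo v ht c n)).nullMeasurableSet)
    (fun m n hmn u hu i hi => hu i (hi.trans hmn)) ⟨0, measure_ne_top _ _⟩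
  have e : (⋂ n, {u | steps v (sh x ω) u ∈ stayAboveTo v ht c n}) =
      {u | steps v (sh x ω) u ∈ stayAbove v ht c} := by
    ext u
    simp only [stayAboveTo, stayAbove, Set.mem_iInter, Set.mem_setOf_eq]
    exact ⟨fun h i => h i i le_rfl, fun h _ i _ => h i⟩
  rw [e] at hlim
  refine le_of_tendsto_of_tendsto tendsto_const_nhds
    ((ENNReal.tendsto_toReal (measure_ne_top _ _)).comp hlim)
    (Eventually.of_forall fun n => hto n x)

theorem uEv_harmonic {ω : Site d → Row k} {M : ℝ} (x : Site d) :
    uEv v ht ω M x = op v ω (uEv v ht ω M) x := by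
  rw [uEv, qr_step v (sh x ω) (Bi := fun i => aboveEv v ht (M - ht (x + v i)))
    (fun i => measurableSet_aboveEv v ht _) fun t => ?_]
  · refine sum_congr rfl fun i _ => ?_
    rw [sh_zero_apply, sh_sh]
    rfl
  · simp only [aboveEv, aboveFrom, Set.mem_iUnion, Set.mem_setOf_eq, map_add]
    constructor
    · rintro ⟨j, hj⟩
      refine ⟨j, fun i hi => ?_⟩
      have := hj (1 + i) (by omega)
      rw [height_one_add] at this
      linarith
    · rintro ⟨j, hj⟩
      refine ⟨j + 1, fun i hi => ?_⟩
      obtain ⟨l, rfl⟩ : ∃ l, i = 1 + l := ⟨i - 1, by omega⟩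
      have := hj l (by omega)
      rw [height_one_add]
      linarith

theorem uEv_le {ω : Site d → Row k} {M : ℝ} {f : Site d → ℝ}
    (hbase : ∀ x, uStay v ht ω M x ≤ f x) (hsup : ∀ x, op v ω f x ≤ f x) (x : Site d) :
    uEv v ht ω M x ≤ f x := by
  have hj : ∀ j x, qr v (sh x ω) (aboveFrom v ht (M - ht x) j) ≤ f x := by
    intro j
    induction j with
    | zero =>
      intro x
      refine le_trans (le_of_eq ?_) (hbase x)
      have : aboveFrom v ht (M - ht x) 0 = stayAbove v ht (M - ht x) := by
        ext t; simp [aboveFrom, stayAbove]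
      rw [uStay, this]
    | succ j ih =>
      intro x
      refine le_trans ?_ (hsup x)
      rw [qr_step v (sh x ω) (Bi := fun i => aboveFrom v ht (M - ht (x + v i)) j)
        (fun i => measurableSet_aboveFrom v ht _ _) fun t => ?_]
      · refine sum_le_sum fun i _ => ?_
        rw [sh_zero_apply, sh_sh]
        exact mul_le_mul_of_nonneg_left (ih _) ((ω x).2.1 i)
      · simp only [aboveFrom, Set.mem_setOf_eq, map_add]
        constructor
        · intro hj i hi
          have := hj (1 + i) (by omega)
          rw [height_one_add] at this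
          linarith
        · intro hj i hi
          obtain ⟨l, rfl⟩ : ∃ l, i = 1 + l := ⟨i - 1, by omega⟩
          have := hj l (by omega)
          rw [height_one_add]
          linarith
  have hlim := tendsto_measure_iUnion_atTop (μ := uLaw)
    (s := fun j => {u | steps v (sh x ω) u ∈ aboveFrom v ht (M - ht x) j})
    (fun m n hmn u hu i hi => hu i (le_trans hmn hi))
  have e : (⋃ j, {u | steps v (sh x ω) u ∈ aboveFrom v ht (M - ht x) j}) =
      {u | steps v (sh x ω) u ∈ aboveEv v ht (M - ht x)} := by
    ext u; simp [aboveEv]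
  rw [e] at hlim
  exact le_of_tendsto ((ENNReal.tendsto_toReal (measure_ne_top _ _)).comp hlim)
    (Eventually.of_forall fun j => hj j x)

variable {a : Site d} {r : Fin k → ℝ}

theorem goodEnv_neg {ω : Site d → Row k} (hω : GoodEnv v a r ω) : GoodEnv v (-a) r ω := by
  have hA : ∀ i, OnAxis v (-a) i ↔ OnAxis v a i := fun i => by
    simp [OnAxis, or_comm]
  have hF : AxisForever v (-a) = AxisForever v a := by
    ext t; simp [AxisForever, hA]
  refine ⟨fun z i hi => ?_, fun i hi => hω.r_nonneg i (by rwa [← hA]), fun x => ?_⟩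
  · rw [hω.ratio z i (by rwa [← hA])]
    congr 1
    refine sum_congr ?_ fun _ _ => rfl
    ext j; simp [and_comm]
  · rw [hF]; exact hω.leaves x

theorem uEv_mono {ω : Site d → Row k} (hω : GoodEnv v a r ω) (hta : 0 ≤ ht a) (M : ℝ)
    (x : Site d) : uEv v ht ω M x ≤ uEv v ht ω M (x + a) := by
  have hu1 : ∀ y, uStay v ht ω M y ≤ 1 := fun y => qr_le_one v _ _
  obtain ⟨hoff, hon⟩ := star_sub hω (u := uStay v ht ω M) (D := {y | M ≤ ht y})
    (fun y hy => by simp only [Set.mem_setOf_eq, map_sub] at hy ⊢; linarith)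
    (fun y => qr_nonneg v _ _) hu1
    (fun y hy => uStay_off (not_le.1 hy)) fun y hy => (uStay_on hy).le
  have hUmono : ∀ (y : Site d) (j : ℕ), uStay v ht ω M y ≤ uStay v ht ω M (y + j • a) := by
    intro y j
    have h1 : ∀ z, star a (uStay v ht ω M) z ≤ uStay v ht ω M z :=
      le_uStay (fun z => ciSup_le fun j => hu1 _) (fun z hz => hoff z (not_le.2 hz)) fun z hz =>
        hon z hz
    have := le_star a hu1 (y + j • a) j
    rw [add_sub_cancel_right] at this
    exact this.trans (h1 _)
  set g : Site d → ℝ := fun y => 1 - uEv v ht ω M y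
  have hg1 : ∀ y, g y ≤ 1 := fun y => by
    have := qr_nonneg v (sh y ω) (aboveEv v ht (M - ht y))
    simp only [g, uEv]
    linarith
  obtain ⟨-, hgon⟩ := star_sub (goodEnv_neg hω) (u := g) (D := Set.univ) (fun y hy => by simp at hy)
    (fun y => by
      have := qr_le_one v (sh y ω) (aboveEv v ht (M - ht y))
      simp only [g, uEv]
      linarith) hg1 (fun y hy => by simp at hy) fun y _ => by
    simp only [g, op, mul_sub, mul_one, sum_sub_distrib, (ω y).2.2]
    rw [uEv_harmonic y]
    rfl
  set f : Site d → ℝ := fun y => 1 - star (-a) g y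
  have hf : ∀ y, uEv v ht ω M y ≤ f y := by
    refine uEv_le (fun y => ?_) fun y => ?_
    · have : star (-a) g y ≤ 1 - uStay v ht ω M y := ciSup_le fun j => by
        have e : y - j • -a = y + j • a := by simp
        rw [e]
        have h1 := hUmono y j
        have h2 : uStay v ht ω M (y + j • a) ≤ uEv v ht ω M (y + j • a) := by
          refine ENNReal.toReal_mono (ne_top_of_le_ne_top ENNReal.one_ne_top
            (quenched_le_one _ _)) (measure_mono fun u hu => ?_)
          exact Set.mem_iUnion.2 ⟨0, fun i _ => hu i⟩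
        simp only [g]
        linarith
      simp only [f]
      linarith
    · have := hgon y trivial
      simp only [op] at this
      simp only [f, op, mul_sub, mul_one, sum_sub_distrib, (ω y).2.2]
      linarith
  have h1 := hf x
  have h2 := le_star (-a) hg1 x 1
  rw [one_nsmul, sub_neg_eq_add] at h2
  simp only [f, g] at h1 h2
  linarith

theorem escape_mono {ω : Site d → Row k} (hω : GoodEnv v a r ω) (hta : 0 ≤ ht a) :
    quenched v ω (up v ht) ≤ quenched v (sh a ω) (up v ht) := by
  have key : ∀ x, Tendsto (fun M : ℕ => uEv v ht ω M x) atTop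
      (𝓝 (qr v (sh x ω) (up v ht))) := by
    intro x
    have hms : Measurable fun u : ℕ → ℝ => steps v (sh x ω) u :=
      Measurable.comp (g := fun z : (Site d → Row k) × (ℕ → ℝ) => steps v z.1 z.2)
        (f := fun u : ℕ → ℝ => (sh x ω, u)) (measurable_steps v)
        (measurable_const.prodMk measurable_id)
    have hlim := tendsto_measure_iInter_atTop (μ := uLaw)
      (s := fun M : ℕ => {u | steps v (sh x ω) u ∈ aboveEv v ht (M - ht x)})
      (fun M => (hms (measurableSet_aboveEv v ht _)).nullMeasurableSet)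
      (fun m n hmn u hu => by
        obtain ⟨j, hj⟩ := Set.mem_iUnion.1 hu
        refine Set.mem_iUnion.2 ⟨j, fun i hi => le_trans ?_ (hj i hi)⟩
        have : (m : ℝ) ≤ n := by exact_mod_cast hmn
        linarith) ⟨0, measure_ne_top _ _⟩
    have e : (⋂ M : ℕ, {u | steps v (sh x ω) u ∈ aboveEv v ht (M - ht x)}) =
        {u | steps v (sh x ω) u ∈ up v ht} := by
      ext u
      simp only [aboveEv, aboveFrom, up, Set.mem_iInter, Set.mem_iUnion, Set.mem_setOf_eq,
        tendsto_atTop_atTop]
      refine ⟨fun h b => ?_, fun h M => ?_⟩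
      · obtain ⟨M, hM⟩ := exists_nat_ge (b + ht x)
        obtain ⟨j, hj⟩ := h M
        exact ⟨j, fun i hi => by linarith [hj i hi]⟩
      · obtain ⟨j, hj⟩ := h (M - ht x)
        exact ⟨j, fun i hi => hj i hi⟩
    rw [e] at hlim
    exact (ENNReal.tendsto_toReal (measure_ne_top _ _)).comp hlim
  have h := le_of_tendsto_of_tendsto (key 0) (key a) (Eventually.of_forall fun M => by
    simpa using uEv_mono hω hta (M : ℝ) 0)
  have e : sh (k := k) (0 : Site d) ω = ω := by
    funext z; simp [sh]
  rw [e] at h
  rw [← ofReal_qr v ω, ← ofReal_qr v (sh a ω)]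
  exact ENNReal.ofReal_le_ofReal h

end Seeds

variable {v} (μ : Measure (Row k)) [IsProbabilityMeasure μ] {a : Site d}

theorem axis_forever_null (i0 : Fin k) (hi0 : ¬ OnAxis v a i0)
    (hpos : ∀ᵐ p ∂μ, (0 : ℝ) < p.1 i0) : law v μ (AxisForever v a) = 0 := by
  classical
  have h1 := fresh_null v μ (0 : Site d →+ ℝ) i0 hpos
  refine measure_mono_null ?_ (measure_union_null (h1 0 0)
    (measure_iUnion_null fun y : Site d => site_null v μ i0 hpos 0 y))
  intro t ht'
  have hmarks : ∀ {M : ℕ → (ℕ → Fin k) → Prop}, {j | M j t}.Infinite →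
      ∀ K, ∃ n, K ≤ marks M n t := fun {M} h K => by
    obtain ⟨F, hF, hc⟩ := h.exists_subset_card_eq K
    exact ⟨F.sup id + 1, hc.symm.le.trans (card_le_card fun j hj => mem_filter.2
      ⟨mem_range.2 (Nat.lt_succ_of_le (le_sup (f := id) hj)), hF hj⟩)⟩
  have hne : ∀ j, t j ≠ i0 := fun j h => hi0 (h ▸ ht' j)
  by_cases hfr : {j | FreshMark v (0 : Site d →+ ℝ) 0 0 j t}.Infinite
  · exact Or.inl ⟨hmarks hfr, fun j _ => hne j⟩
  right
  rw [Set.not_infinite] at hfr
  set R : Finset (Site d) := hfr.toFinset.image (pos v t)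
  have hR : ∀ n, pos v t n ∈ R := by
    intro n
    induction n using Nat.strong_induction_on with
    | _ n ih =>
      by_cases hn : ∀ j < n, pos v t j ≠ pos v t n
      · exact mem_image_of_mem _ (hfr.mem_toFinset.2 ⟨n.zero_le, by simp, hn⟩)
      · push Not at hn
        obtain ⟨j, hj, hje⟩ := hn
        rw [← hje]
        exact ih j hj
  obtain ⟨y, hy⟩ : ∃ y, {n | pos v t n = y}.Infinite := by
    by_contra hcon
    push Not at hcon
    have hfin : (Set.univ : Set ℕ).Finite :=
      Set.Finite.subset (R.finite_toSet.biUnion fun y _ => hcon y) fun n _ =>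
        Set.mem_biUnion (mem_coe.2 (hR n)) rfl
    exact Set.infinite_univ hfin
  exact Set.mem_iUnion.2 ⟨y, hmarks (hy.mono fun n hn => ⟨n.zero_le, hn⟩), fun j _ => hne j⟩

theorem ae_goodEnv (i0 : Fin k) (hi0 : ¬ OnAxis v a i0) (hpos : ∀ᵐ p ∂μ, (0 : ℝ) < p.1 i0)
    {r : Fin k → ℝ}
    (hr : ∀ᵐ p ∂μ, ∀ i, ¬ OnAxis v a i →
      p.1 i = r i * (∑ j ∈ univ.filter (fun j => v j ≠ a ∧ v j ≠ -a), p.1 j)) :
    ∀ᵐ ω ∂envLaw (d := d) μ, GoodEnv v a r ω := by
  have hr0 : ∀ i, ¬ OnAxis v a i → 0 ≤ r i := by
    obtain ⟨p, hp, hp0⟩ := (hr.and hpos).exists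
    intro i hi
    by_contra hneg
    rw [not_le] at hneg
    have hs : 0 < ∑ j ∈ univ.filter (fun j => v j ≠ a ∧ v j ≠ -a), p.1 j :=
      lt_of_lt_of_le hp0 (single_le_sum (fun j _ => p.2.1 j)
        (mem_filter.2 ⟨mem_univ _, not_or.1 hi0⟩))
    have := hp i hi
    nlinarith [p.2.1 i]
  have hm : MeasurableSet (AxisForever v a) := by
    have : AxisForever v a = ⋂ n, AxisTo v a n := by
      ext t
      simp only [AxisForever, AxisTo, Set.mem_iInter, Set.mem_setOf_eq]
      exact ⟨fun h _ i _ => h i, fun h i => h (i + 1) i i.lt_succ_self⟩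
    rw [this]
    exact .iInter fun n => measurableSet_axisTo v a n
  have h0 := axis_forever_null μ i0 hi0 hpos
  rw [law_apply v μ hm, lintegral_eq_zero_iff (measurable_quenched v hm)] at h0
  have hl : ∀ᵐ ω ∂envLaw (d := d) μ, ∀ x, quenched v (sh x ω) (AxisForever v a) = 0 :=
    ae_all_iff.2 fun x => (measurePreserving_sh μ x).quasiMeasurePreserving.ae h0
  have hr' : ∀ᵐ ω ∂envLaw (d := d) μ, ∀ z i, ¬ OnAxis v a i →
      (ω z).1 i = r i * (∑ j ∈ univ.filter (fun j => v j ≠ a ∧ v j ≠ -a), (ω z).1 j) :=
    ae_all_iff.2 fun z =>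
      (measurePreserving_eval_infinitePi (fun _ : Site d => μ) z).quasiMeasurePreserving.ae hr
  filter_upwards [hl, hr'] with ω h1 h2
  exact ⟨h2, hr0, h1⟩

theorem zero_one_monotone (ha : a ≠ 0) {B : Set (ℕ → Fin k)} (hB : MeasurableSet B)
    (hinv : ∀ t, t ∈ B ↔ (fun i => t (i + 1)) ∈ B)
    (hmono : ∀ᵐ ω ∂envLaw (d := d) μ, quenched v ω B ≤ quenched v (sh a ω) B) :
    law v μ B = 0 ∨ law v μ B = 1 := by
  classical
  have hq := measurable_quenched v hB
  have heq : (fun ω => quenched v ω B) =ᵐ[envLaw (d := d) μ]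
      fun ω => quenched v (sh a ω) B := by
    refine ae_eq_of_ae_le_of_lintegral_le hmono ?_ (hq.comp (measurable_sh a)).aemeasurable ?_
    · rw [← law_apply v μ hB]
      exact measure_ne_top _ _
    · exact le_of_eq ((measurePreserving_sh μ a).lintegral_comp hq)
  have hcomp : ∀ ω : Site d → Row k, quenched v ω Bᶜ = 1 - quenched v ω B := fun ω => by
    rw [← quenched_add_compl v ω hB, ENNReal.add_sub_cancel_left
      (ne_top_of_le_ne_top ENNReal.one_ne_top (quenched_le_one ω B))]
  have hphi : ∀ᵐ ω ∂envLaw (d := d) μ, phi v B (sh a ω) = phi v B ω := by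
    filter_upwards [heq] with ω hω
    simp only [phi, hcomp, ← hω]
  have hzero : ∀ᵐ ω ∂envLaw (d := d) μ, phi v B ω = 0 := by
    by_contra hne
    obtain ⟨m, hm⟩ : ∃ m : ℕ,
        envLaw (d := d) μ {η | ENNReal.ofReal (1 / (m + 1)) ≤ phi v B η} ≠ 0 := by
      by_contra hcon
      push Not at hcon
      refine hne (ae_iff.2 (measure_mono_null (t := ⋃ m : ℕ,
        {η | ENNReal.ofReal (1 / (m + 1)) ≤ phi v B η}) ?_ (measure_iUnion_null hcon)))
      intro η hη
      simp only [Set.mem_iUnion, Set.mem_setOf_eq]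
      have h1 : phi v B η ≠ ∞ :=
        ne_top_of_le_ne_top ENNReal.one_ne_top ((min_le_left _ _).trans (quenched_le_one η B))
      obtain ⟨m, hm⟩ := exists_nat_one_div_lt (ENNReal.toReal_pos hη h1)
      refine ⟨m, ?_⟩
      rw [← ENNReal.ofReal_toReal h1]
      exact ENNReal.ofReal_le_ofReal hm.le
    set e : ℝ := 1 / (m + 1)
    set G := {η : Site d → Row k | ENNReal.ofReal e ≤ phi v B η}
    have hGm : MeasurableSet G := measurableSet_le measurable_const (measurable_phi v hB)
    have hGinv : sh a ⁻¹' G =ᵐ[envLaw (d := d) μ] G := by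
      filter_upwards [hphi] with ω hω
      show (ENNReal.ofReal e ≤ phi v B (sh a ω)) = (ENNReal.ofReal e ≤ phi v B ω)
      rw [hω]
    have hG1 : ∀ᵐ ω ∂envLaw (d := d) μ, ENNReal.ofReal e ≤ phi v B ω :=
      (mem_ae_iff_prob_eq_one₀ hGm.nullMeasurableSet).2
        ((env_zero_one μ ha hGm hGinv).resolve_left hm)
    have he : 0 < e := Nat.one_div_pos_of_nat
    have hd : (law v μ).MeasureDense (measurableCylinders fun _ : ℕ => Fin k) :=
      Measure.MeasureDense.of_generateFrom_isSetAlgebra_finite _ isSetAlgebra_measurableCylinders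
        generateFrom_measurableCylinders.symm
    obtain ⟨C, hC, hCe⟩ := hd.approx B hB (measure_ne_top _ _) e he
    obtain ⟨S, S', hS', rfl⟩ := (mem_measurableCylinders _).1 hC
    set n := S.sup id + 1
    have hdep : ∀ t t' : ℕ → Fin k, (∀ i < n, t i = t' i) →
        t ∈ cylinder S S' → t' ∈ cylinder S S' := fun t t' h ht' => by
      have : S.restrict t = S.restrict t' := funext fun i => h i
        (Nat.lt_succ_of_le (le_sup (f := id) i.2))
      rw [mem_cylinder] at ht' ⊢
      rwa [← this]
    have h1 := (phi_mass_le v μ hB hinv (MeasurableSet.cylinder S hS') n hdep).trans_lt hCe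
    refine absurd h1 (not_lt.2 ?_)
    calc ENNReal.ofReal e
        = ENNReal.ofReal e * ∑ w : Fin n → Fin k, ∫⁻ ω, weight v (ext' w) n ω ∂envLaw μ := by
          rw [sum_mass, mul_one]
      _ ≤ _ := by
          rw [mul_sum]
          refine sum_le_sum fun w _ => ?_
          rw [← lintegral_const_mul _ (measurable_weight v _ n)]
          refine lintegral_mono_ae ?_
          filter_upwards [(measurePreserving_sh μ (pos v (ext' w) n)).quasiMeasurePreserving.ae
            hG1] with ω hω
          rw [mul_comm]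
          exact mul_le_mul_right hω _
  set E := {ω : Site d → Row k | quenched v ω B = 1} with hEd
  have hEm : MeasurableSet E := hq (measurableSet_singleton 1)
  have hEinv : sh a ⁻¹' E =ᵐ[envLaw (d := d) μ] E := by
    filter_upwards [heq] with ω hω
    show (quenched v (sh a ω) B = 1) = (quenched v ω B = 1)
    rw [hω]
  have hlaw : law v μ B = envLaw μ E := by
    rw [law_apply v μ hB, ← lintegral_indicator_one hEm]
    refine lintegral_congr_ae ?_
    filter_upwards [hzero] with ω hω
    simp only [Set.indicator_apply, hEd, Set.mem_setOf_eq, Pi.one_apply]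
    split_ifs with h
    · exact h
    · rcases min_eq_bot.1 hω with h' | h'
      · exact h'
      · have := quenched_add_compl v ω hB
        rw [show quenched v ω Bᶜ = 0 from h', add_zero] at this
        exact absurd this h
  rw [hlaw]
  exact env_zero_one μ ha hEm hEinv

/-- Zero-one law when only the steps along one axis carry randomness. -/
theorem zero_one_axis (ha : a ≠ 0) (i0 : Fin k) (hi0 : v i0 ≠ a ∧ v i0 ≠ -a)
    (hpos : ∀ᵐ p ∂μ, (0 : ℝ) < p.1 i0) {r : Fin k → ℝ}
    (hr : ∀ᵐ p ∂μ, ∀ i, v i ≠ a → v i ≠ -a →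
      p.1 i = r i * (∑ j ∈ univ.filter (fun j => v j ≠ a ∧ v j ≠ -a), p.1 j))
    (l : Fin d → ℝ) : law v μ (Escape v l) = 0 ∨ law v μ (Escape v l) = 1 := by
  have hgood := ae_goodEnv μ i0 (not_or.2 hi0) hpos (r := r)
    (hr.mono fun p hp i hi => hp i (not_or.1 hi).1 (not_or.1 hi).2)
  rw [escape_eq]
  rcases le_total 0 (Cond.dot l a) with h | h
  · exact zero_one_monotone μ ha (measurableSet_up v _) (up_invariant v _)
      (hgood.mono fun ω hω => escape_mono hω h)
  · exact zero_one_monotone μ (neg_ne_zero.2 ha) (measurableSet_up v _) (up_invariant v _)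
      (hgood.mono fun ω hω => escape_mono (goodEnv_neg hω) (by rw [map_neg]; linarith))

end Vale.Agent.P147.Bal
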