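import Vale.Agent.P147.Cond.Main

/-!
P147: averages over words and power decay of a superharmonic average.
-/

open Filter Finset
open scoped Topology

namespace Vale.Agent.P147.Bal

open Vale.Agent.P147.Cond

variable {d k : ℕ} [NeZero k] (v : Fin k → Site d) (ω : Site d → Row k)

/-- Weight of a word, as a real number. -/
def wt (s : ℕ → Fin k) (n : ℕ) : ℝ := ∏ i ∈ range n, (ω (pos v s i)).1 (s i)

omit [NeZero k] in
theorem wt_nonneg (s : ℕ → Fin k) (n : ℕ) : 0 ≤ wt v ω s n :=
  prod_nonneg fun i _ => (ω (pos v s i)).2.1 _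

/-- Average of a function over the words of length `n`. -/
noncomputable def avg (n : ℕ) (f : (ℕ → Fin k) → ℝ) : ℝ :=
  ∑ w : Fin n → Fin k, wt v ω (ext' w) n * f (ext' w)

theorem ext'_snoc {n : ℕ} (w : Fin n → Fin k) (i : Fin k) :
    ext' (Fin.snoc w i : Fin (n + 1) → Fin k) = Function.update (ext' w) n i := by
  funext j
  rcases lt_trichotomy j n with h | rfl | h
  · rw [Function.update_of_ne h.ne]
    simp [ext', h, h.trans (Nat.lt_succ_self n), Fin.snoc]
  · simp [ext', Fin.snoc]
  · rw [Function.update_of_ne h.ne']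
    simp [ext', show ¬ j < n + 1 by omega, show ¬ j < n by omega]

theorem pos_update (s : ℕ → Fin k) (n : ℕ) (i : Fin k) {j : ℕ} (hj : j ≤ n) :
    pos v (Function.update s n i) j = pos v s j :=
  pos_congr v (fun a ha => Function.update_of_ne ha.ne _ _) hj

theorem pos_update_succ (s : ℕ → Fin k) (n : ℕ) (i : Fin k) :
    pos v (Function.update s n i) (n + 1) = pos v s n + v i := by
  rw [pos, sum_range_succ, Function.update_self, ← pos, pos_update v s n i le_rfl]

theorem wt_update (s : ℕ → Fin k) (n : ℕ) (i : Fin k) :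
    wt v ω (Function.update s n i) (n + 1) = wt v ω s n * (ω (pos v s n)).1 i := by
  rw [wt, prod_range_succ, Function.update_self, pos_update v s n i le_rfl]
  refine congrArg (· * _) (prod_congr rfl fun j hj => ?_)
  rw [pos_update v s n i (mem_range.1 hj).le, Function.update_of_ne (mem_range.1 hj).ne]

theorem avg_succ (n : ℕ) (f : (ℕ → Fin k) → ℝ) :
    avg v ω (n + 1) f =
      avg v ω n fun t => ∑ i, (ω (pos v t n)).1 i * f (Function.update t n i) := by
  have hb : ∀ p : Fin k × (Fin n → Fin k),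
      (Fin.snocEquiv fun _ => Fin k) p = (Fin.snoc p.2 p.1 : Fin (n + 1) → Fin k) := fun p => rfl
  simp only [avg]
  rw [← Equiv.sum_comp (Fin.snocEquiv fun _ => Fin k), Fintype.sum_prod_type, sum_comm]
  refine sum_congr rfl fun w _ => ?_
  rw [mul_sum]
  refine sum_congr rfl fun i _ => ?_
  rw [hb, ext'_snoc, wt_update]
  ring

theorem avg_const (n : ℕ) : avg v ω n (fun _ => 1) = 1 := by
  induction n with
  | zero => simp [avg, wt]
  | succ n ih =>
    rw [avg_succ]
    simp only [mul_one, (ω _).2.2]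
    exact ih

theorem avg_mono (n : ℕ) {f f' : (ℕ → Fin k) → ℝ} (h : ∀ t, f t ≤ f' t) :
    avg v ω n f ≤ avg v ω n f' :=
  sum_le_sum fun _ _ => mul_le_mul_of_nonneg_left (h _) (wt_nonneg v ω _ _)

theorem avg_sum {ι : Type*} (S : Finset ι) (n : ℕ) (f : ι → (ℕ → Fin k) → ℝ) :
    avg v ω n (fun t => ∑ i ∈ S, f i t) = ∑ i ∈ S, avg v ω n (f i) := by
  simp only [avg, mul_sum]
  exact sum_comm

/-- A function of the first `l` steps has the same average over longer words. -/
theorem avg_stable {l : ℕ} {f : (ℕ → Fin k) → ℝ}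
    (hf : ∀ t t' : ℕ → Fin k, (∀ i < l, t i = t' i) → f t = f t') {n : ℕ} (hn : l ≤ n) :
    avg v ω n f = avg v ω l f := by
  induction n, hn using Nat.le_induction with
  | base => rfl
  | succ n hn ih =>
    rw [avg_succ, ← ih]
    refine congrArg (avg v ω n) (funext fun t => ?_)
    have : ∀ i, f (Function.update t n i) = f t := fun i =>
      hf _ _ fun j hj => Function.update_of_ne (by omega) _ _
    simp only [this, ← sum_mul, (ω _).2.2, one_mul]

/-- Power decay from the recursion `T (n+1) ≤ T n - c T n ^ (1+1/a)`. -/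
theorem decay {T : ℕ → ℝ} {a c : ℝ} (ha : 0 < a) (hc : 0 < c) (h0 : T 0 ≤ 1)
    (hT : ∀ n, 0 ≤ T n) (hstep : ∀ n, T (n + 1) ≤ T n - c * T n ^ (1 + a⁻¹)) (n : ℕ) :
    T n ≤ (1 + n * (c / a)) ^ (-a) := by
  induction n with
  | zero => simpa using h0
  | succ n ih =>
    have hb : (0 : ℝ) < 1 + (n + 1 : ℕ) * (c / a) := by positivity
    rcases (hT (n + 1)).eq_or_lt with h | h
    · rw [← h]
      exact Real.rpow_nonneg hb.le _
    have hn : 0 < T n := by
      rcases (hT n).eq_or_lt with h' | h'
      · have := hstep n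
        rw [← h', Real.zero_rpow (by positivity)] at this
        linarith
      · exact h'
    set W := T n ^ a⁻¹
    have hW : 0 < W := Real.rpow_pos_of_pos hn _
    have hW1 : W * (1 + n * (c / a)) ≤ 1 := by
      have h2 : W ≤ ((1 + n * (c / a)) ^ (-a)) ^ a⁻¹ :=
        Real.rpow_le_rpow hn.le ih (by positivity)
      have hb' : (0 : ℝ) < 1 + n * (c / a) := by positivity
      rw [← Real.rpow_mul hb'.le, neg_mul, mul_inv_cancel₀ ha.ne', Real.rpow_neg_one] at h2
      calc W * (1 + n * (c / a)) ≤ (1 + n * (c / a))⁻¹ * (1 + n * (c / a)) :=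
            mul_le_mul_of_nonneg_right h2 hb'.le
        _ = 1 := inv_mul_cancel₀ hb'.ne'
    have hs : T (n + 1) ≤ T n * (1 - c * W) := by
      refine (hstep n).trans (le_of_eq ?_)
      rw [Real.rpow_add hn, Real.rpow_one]
      ring
    have hy : 0 < 1 - c * W := (pos_iff_pos_of_mul_pos (h.trans_le hs)).1 hn
    set W' := T (n + 1) ^ a⁻¹
    have hW' : W' ≤ W * (1 - c * W) ^ a⁻¹ := by
      rw [← Real.mul_rpow hn.le hy.le]
      exact Real.rpow_le_rpow h.le hs (by positivity)
    have hcal : (1 - c * W) ^ a⁻¹ * (1 + c * W / a) ≤ 1 := by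
      rw [Real.rpow_def_of_pos hy]
      calc Real.exp (Real.log (1 - c * W) * a⁻¹) * (1 + c * W / a)
          ≤ Real.exp (-(c * W) / a) * Real.exp (c * W / a) := by
            refine mul_le_mul (Real.exp_le_exp.2 ?_) ?_ (by positivity) (Real.exp_nonneg _)
            · rw [← div_eq_mul_inv, div_le_div_iff_of_pos_right ha]
              linarith [Real.log_le_sub_one_of_pos hy]
            · rw [add_comm]
              exact Real.add_one_le_exp _
        _ = 1 := by rw [← Real.exp_add, neg_div, neg_add_cancel, Real.exp_zero]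
    have hkey : W' * (1 + (n + 1 : ℕ) * (c / a)) ≤ 1 := by
      refine (mul_le_mul_of_nonneg_right hW' hb.le).trans ?_
      have hm : W * (1 + (n + 1 : ℕ) * (c / a)) ≤ 1 + c * W / a := by
        push_cast
        calc W * (1 + ((n : ℝ) + 1) * (c / a)) = W * (1 + n * (c / a)) + c * W / a := by ring
          _ ≤ _ := by linarith
      calc W * (1 - c * W) ^ a⁻¹ * (1 + (n + 1 : ℕ) * (c / a))
          = (1 - c * W) ^ a⁻¹ * (W * (1 + (n + 1 : ℕ) * (c / a))) := by ring
        _ ≤ (1 - c * W) ^ a⁻¹ * (1 + c * W / a) :=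
            mul_le_mul_of_nonneg_left hm (Real.rpow_nonneg hy.le _)
        _ ≤ 1 := hcal
    have h3 : T (n + 1) = W' ^ a := by
      rw [← Real.rpow_mul h.le, inv_mul_cancel₀ ha.ne', Real.rpow_one]
    rw [h3, Real.rpow_neg hb.le, ← Real.inv_rpow hb.le]
    refine Real.rpow_le_rpow (Real.rpow_nonneg h.le _) ?_ ha.le
    rw [← one_div, le_div_iff₀ hb]
    exact hkey

theorem decay_summable {a b : ℝ} (ha : 1 < a) (hb : 0 < b) :
    Summable fun n : ℕ => (1 + (n : ℝ) * b) ^ (-a) := by
  have hm : 0 < min 1 b := lt_min one_pos hb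
  have hs : Summable fun n : ℕ => ((n + 1 : ℕ) : ℝ) ^ (-a) :=
    (summable_nat_add_iff 1).2 (Real.summable_nat_rpow.2 (by linarith))
  refine Summable.of_nonneg_of_le (fun n => Real.rpow_nonneg (by positivity) _) (fun n => ?_)
    (hs.mul_left (min 1 b ^ (-a)))
  rw [← Real.mul_rpow hm.le (by positivity)]
  refine Real.rpow_le_rpow_of_nonpos (by positivity) ?_ (by linarith)
  push_cast
  nlinarith [min_le_left (1 : ℝ) b, min_le_right (1 : ℝ) b, (Nat.cast_nonneg n : (0 : ℝ) ≤ n)]

/-- The bounded, even, uniformly strictly superharmonic function used for the estimates. -/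
structure Super (g : Site d → ℝ) (a c : ℝ) : Prop where
  one_lt : 1 < a
  c_pos : 0 < c
  nonneg : ∀ x, 0 ≤ g x
  le_one : ∀ x, g x ≤ 1
  at_zero : g 0 = 1
  even : ∀ x, g (-x) = g x

/-- A row for which `g` is superharmonic with a surplus. -/
def Drift (g : Site d → ℝ) (a c : ℝ) (p : Row k) : Prop :=
  ∀ x, ∑ i, p.1 i * g (x + v i) ≤ g x - c * g x ^ (1 + a⁻¹)

variable {v ω} {g : Site d → ℝ} {a c : ℝ}

theorem avg_dist (hg : Super g a c) (hω : ∀ z, Drift v g a c (ω z)) (i u : ℕ) :
    avg v ω (i + u) (fun t => g (pos v t (i + u) - pos v t i)) ≤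
      (1 + (u : ℝ) * (c / a)) ^ (-a) := by
  refine decay (T := fun u => avg v ω (i + u) fun t => g (pos v t (i + u) - pos v t i))
    (by linarith [hg.one_lt]) hg.c_pos ?_ ?_ ?_ u
  · simp [hg.at_zero, avg_const]
  · exact fun u => sum_nonneg fun _ _ => mul_nonneg (wt_nonneg v ω _ _) (hg.nonneg _)
  · intro u
    rw [← add_assoc, avg_succ]
    have hJ : avg v ω (i + u) (fun t => g (pos v t (i + u) - pos v t i)) ^ (1 + a⁻¹) ≤
        avg v ω (i + u) fun t => g (pos v t (i + u) - pos v t i) ^ (1 + a⁻¹) := by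
      have h1 : ∑ w : Fin (i + u) → Fin k, wt v ω (ext' w) (i + u) = 1 := by
        have := avg_const v ω (i + u)
        simpa [avg] using this
      refine Real.rpow_arith_mean_le_arith_mean_rpow univ _ _
        (fun w _ => wt_nonneg v ω _ _) h1 (fun w _ => hg.nonneg _) ?_
      have : (0 : ℝ) < a⁻¹ := by
        have := hg.one_lt
        positivity
      linarith
    calc avg v ω (i + u) (fun t => ∑ j, (ω (pos v t (i + u))).1 j *
          g (pos v (Function.update t (i + u) j) (i + u + 1) -
            pos v (Function.update t (i + u) j) i))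
        ≤ avg v ω (i + u) (fun t => g (pos v t (i + u) - pos v t i) -
            c * g (pos v t (i + u) - pos v t i) ^ (1 + a⁻¹)) := by
          refine avg_mono v ω _ fun t => ?_
          refine le_trans (le_of_eq ?_) (hω (pos v t (i + u)) (pos v t (i + u) - pos v t i))
          refine sum_congr rfl fun j _ => ?_
          rw [pos_update_succ, pos_update v t (i + u) j (Nat.le_add_right i u)]
          congr 2
          abel
      _ = avg v ω (i + u) (fun t => g (pos v t (i + u) - pos v t i)) -
            c * avg v ω (i + u) fun t => g (pos v t (i + u) - pos v t i) ^ (1 + a⁻¹) := by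
          simp only [avg, mul_sub, sum_sub_distrib, mul_sum]
          refine congrArg _ (sum_congr rfl fun w _ => by ring)
      _ ≤ _ := by
          have := mul_le_mul_of_nonneg_left hJ hg.c_pos.le
          linarith

/-- The same bound for an intermediate time. -/
theorem avg_dist_le (hg : Super g a c) (hω : ∀ z, Drift v g a c (ω z)) {i l n : ℕ} (hil : i ≤ l)
    (hln : l ≤ n) : avg v ω n (fun t => g (pos v t l - pos v t i)) ≤
      (1 + ((l - i : ℕ) : ℝ) * (c / a)) ^ (-a) := by
  rw [avg_stable v ω (l := l) (fun t t' h => by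
    rw [pos_congr v h le_rfl, pos_congr v h hil]) hln]
  obtain ⟨u, rfl⟩ := Nat.exists_eq_add_of_le hil
  rw [Nat.add_sub_cancel_left]
  exact avg_dist hg hω i u

end Vale.Agent.P147.Bal
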