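import Vale.Agent.P147.Bal.Decay

/-!
P147: hitting bounds and the effect of changing finitely many rows.
-/

open MeasureTheory Filter Finset
open scoped ENNReal Topology

namespace Vale.Agent.P147.Bal

open Vale.Agent.P147.Cond

variable {d k : ℕ} [NeZero k] {v : Fin k → Site d} {g : Site d → ℝ} {a c : ℝ}

/-- The site `z` is visited by time `n`. -/
def hitBy (v : Fin k → Site d) (z : Site d) (n : ℕ) : Set (ℕ → Fin k) :=
  {t | ∃ i ≤ n, pos v t i = z}

theorem measurableSet_hitBy (z : Site d) (n : ℕ) : MeasurableSet (hitBy v z n) := by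
  refine measurableSet_of_prefix n fun t t' h => ?_
  rintro ⟨i, hi, hz⟩
  exact ⟨i, hi, by rwa [← pos_congr v h hi]⟩

theorem quenched_le_one (ω : Site d → Row k) (B : Set (ℕ → Fin k)) : quenched v ω B ≤ 1 :=
  prob_le_one

theorem weight_one (ω : Site d → Row k) (i : Fin k) :
    weight v (fun _ => i) 1 ω = ENNReal.ofReal ((ω 0).1 i) := by
  simp [weight, pos]

theorem quenched_hitBy (hg : Super g a c) {ω : Site d → Row k}
    (hω : ∀ z, Drift v g a c (ω z)) (z : Site d) (n : ℕ) :
    quenched v ω (hitBy v z n) ≤ ENNReal.ofReal (g z) := by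
  induction n generalizing ω z with
  | zero =>
    by_cases hz : z = 0
    · rw [hz, hg.at_zero, ENNReal.ofReal_one]
      exact quenched_le_one _ _
    · have : hitBy v z 0 = ∅ := by
        ext t
        simp [hitBy, pos, eq_comm, hz]
      simp [this, quenched]
  | succ n ih =>
    by_cases hz : z = 0
    · rw [hz, hg.at_zero, ENNReal.ofReal_one]
      exact quenched_le_one _ _
    · have hsub : hitBy v z (n + 1) ⊆ ⋃ j ∈ (univ : Finset (Fin k)),
          {t | (∀ i < 1, t i = j) ∧ (fun i => t (1 + i)) ∈ hitBy v (z - v j) n} := by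
        rintro t ⟨i, hi, hiz⟩
        rcases i with _ | i
        · exact absurd (by simpa [pos] using hiz.symm) hz
        · simp only [Set.mem_iUnion, exists_prop, mem_univ, true_and]
          refine ⟨t 0, fun l hl => by rw [Nat.lt_one_iff.1 hl], i, by omega, ?_⟩
          rw [add_comm, pos_add] at hiz
          rw [← hiz]
          simp [pos]
      calc quenched v ω (hitBy v z (n + 1))
          ≤ quenched v ω (⋃ j ∈ (univ : Finset (Fin k)),
              {t | (∀ i < 1, t i = j) ∧ (fun i => t (1 + i)) ∈ hitBy v (z - v j) n}) := by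
            refine measure_mono fun u hu => ?_
            exact hsub hu
        _ ≤ ∑ j, quenched v ω
              {t | (∀ i < 1, t i = j) ∧ (fun i => t (1 + i)) ∈ hitBy v (z - v j) n} := by
            refine le_trans (le_of_eq ?_) (measure_biUnion_finset_le _ _)
            exact congrArg uLaw (by ext u; simp)
        _ ≤ ∑ j, ENNReal.ofReal ((ω 0).1 j * g (z - v j)) := by
            refine sum_le_sum fun j _ => ?_
            rw [quenched_prefix v ω (fun _ => j) 1 (measurableSet_hitBy _ _), weight_one,
              ENNReal.ofReal_mul ((ω 0).2.1 j)]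
            gcongr
            exact ih (fun y => hω _) _
        _ = ENNReal.ofReal (∑ j, (ω 0).1 j * g (-z + v j)) := by
            rw [ENNReal.ofReal_sum_of_nonneg fun j _ => mul_nonneg ((ω 0).2.1 j) (hg.nonneg _)]
            refine sum_congr rfl fun j _ => ?_
            rw [← hg.even (-z + v j)]
            congr 3
            abel
        _ ≤ _ := by
            refine ENNReal.ofReal_le_ofReal ((hω 0 (-z)).trans ?_)
            rw [hg.even]
            have := mul_nonneg hg.c_pos.le (Real.rpow_nonneg (hg.nonneg z) (1 + a⁻¹))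
            linarith

theorem quenched_hit (hg : Super g a c) {ω : Site d → Row k}
    (hω : ∀ z, Drift v g a c (ω z)) (z : Site d) :
    quenched v ω {t | ∃ i, pos v t i = z} ≤ ENNReal.ofReal (g z) := by
  have he : {u | steps v ω u ∈ {t | ∃ i, pos v t i = z}} =
      ⋃ n, {u | steps v ω u ∈ hitBy v z n} := by
    ext u
    simp only [hitBy, Set.mem_iUnion, Set.mem_setOf_eq]
    exact ⟨fun ⟨i, hi⟩ => ⟨i, i, le_rfl, hi⟩, fun ⟨_, i, _, hi⟩ => ⟨i, hi⟩⟩
  unfold quenched
  have hm : Monotone fun n => {u | steps v ω u ∈ hitBy v z n} := fun m n hmn u hu => by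
    obtain ⟨i, hi, hz⟩ := hu
    exact ⟨i, hi.trans hmn, hz⟩
  rw [he, hm.measure_iUnion]
  exact iSup_le fun n => quenched_hitBy hg hω z n

theorem steps_eq_of_avoid {ω ω' : Site d → Row k} {V : Finset (Site d)}
    (h : ∀ z ∉ V, ω z = ω' z) {u : ℕ → ℝ} (hu : ∀ i, pos v (steps v ω u) i ∉ V) :
    steps v ω u = steps v ω' u := by
  have hV : ∀ i, ω (walk v ω u i) = ω' (walk v ω u i) := fun i => h _ (by
    have := hu i
    rwa [pos_steps] at this)
  have hw : ∀ i, walk v ω u i = walk v ω' u i := fun i => by
    induction i with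
    | zero => rfl
    | succ i ih =>
      simp only [walk]
      rw [hV i, ih]
  funext i
  simp only [steps]
  rw [hV i, hw i]

/-- Changing the rows on `V` moves a quenched probability by at most the chance to reach `V`. -/
theorem quenched_change (hg : Super g a c) {ω ω' : Site d → Row k} {V : Finset (Site d)}
    (hω : ∀ z, Drift v g a c (ω z)) (h : ∀ z ∉ V, ω z = ω' z) (B : Set (ℕ → Fin k)) :
    quenched v ω B ≤ quenched v ω' B + ENNReal.ofReal (∑ z ∈ V, g z) := by
  calc quenched v ω B
      ≤ uLaw ({u | steps v ω' u ∈ B} ∪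
          ⋃ z ∈ V, {u | steps v ω u ∈ {t | ∃ i, pos v t i = z}}) := by
        refine measure_mono fun u hu => ?_
        by_cases hav : ∀ i, pos v (steps v ω u) i ∉ V
        · left
          show steps v ω' u ∈ B
          rw [← steps_eq_of_avoid h hav]
          exact hu
        · right
          push Not at hav
          obtain ⟨i, hi⟩ := hav
          simp only [Set.mem_iUnion, exists_prop]
          exact ⟨_, hi, i, rfl⟩
    _ ≤ quenched v ω' B + ∑ z ∈ V, quenched v ω {t | ∃ i, pos v t i = z} :=
        (measure_union_le _ _).trans (add_le_add le_rfl (measure_biUnion_finset_le _ _))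
    _ ≤ _ := by
        rw [ENNReal.ofReal_sum_of_nonneg fun z _ => hg.nonneg z]
        gcongr with z
        exact quenched_hit hg hω z

end Vale.Agent.P147.Bal
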