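import Mathlib

/-!
P147: a Lyapunov function for steps with balanced transverse functionals.
-/

open Finset

namespace Vale.Agent.P147.Bal

/-- A second order bound for a negative power near one. -/
theorem rpow_taylor {a δ η : ℝ} (ha : 0 ≤ a) (ha2 : a ≤ 2) (hδ : |δ| ≤ η) (hη : η ≤ 1 / 8) :
    (1 + δ) ^ (-a) ≤ 1 - a * δ + (a * (a + 1) / 2 + 16 * η) * δ ^ 2 := by
  have hη0 : 0 ≤ η := (abs_nonneg _).trans hδ
  obtain ⟨hδ1, hδ2⟩ := abs_le.1 hδ
  rw [Real.rpow_def_of_pos (by linarith)]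
  -- lower bound on the logarithm
  have hl : δ - δ ^ 2 / 2 - 2 * η * δ ^ 2 ≤ Real.log (1 + δ) := by
    have h := Real.abs_log_sub_add_sum_range_le (x := -δ) (by rw [abs_neg]; linarith) 2
    simp only [Finset.sum_range_succ, Finset.sum_range_zero, sub_neg_eq_add, abs_neg] at h
    have h3 : |δ| ^ (2 + 1) / (1 - |δ|) ≤ 2 * η * δ ^ 2 := by
      rw [div_le_iff₀ (by linarith)]
      have : |δ| ^ (2 + 1) = |δ| * δ ^ 2 := by
        rw [pow_succ', sq_abs]
      rw [this]
      have e1 : |δ| * δ ^ 2 ≤ η * δ ^ 2 := mul_le_mul_of_nonneg_right hδ (sq_nonneg _)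
      have e2 : η * δ ^ 2 * 1 ≤ η * δ ^ 2 * (2 * (1 - |δ|)) :=
        mul_le_mul_of_nonneg_left (by linarith) (mul_nonneg hη0 (sq_nonneg _))
      nlinarith
    have h4 := (abs_le.1 h).1
    norm_num at h4
    nlinarith
  set y := -(a * (δ - δ ^ 2 / 2 - 2 * η * δ ^ 2)) with hy
  have hle : Real.exp (Real.log (1 + δ) * -a) ≤ Real.exp y := by
    refine Real.exp_le_exp.2 ?_
    have := mul_le_mul_of_nonneg_left hl ha
    rw [hy]
    linarith
  refine hle.trans ?_
  have hδsq : δ ^ 2 ≤ η * |δ| := by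
    rw [← sq_abs, sq]
    exact mul_le_mul_of_nonneg_right hδ (abs_nonneg _)
  have hyabs : |y| ≤ a * |δ| * (1 + η) := by
    rw [hy, abs_neg, abs_mul, abs_of_nonneg ha, mul_assoc a |δ|]
    refine mul_le_mul_of_nonneg_left ?_ ha
    have h5 : 0 ≤ δ ^ 2 := sq_nonneg _
    have h6 : δ ^ 2 / 2 + 2 * η * δ ^ 2 ≤ η * |δ| := by nlinarith
    have h7 := abs_nonneg δ
    rw [abs_le]
    constructor
    · linarith [neg_abs_le δ]
    · have : 0 ≤ δ ^ 2 / 2 + 2 * η * δ ^ 2 := by positivity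
      linarith [le_abs_self δ, mul_nonneg hη0 h7]
  have hy3 : |y| ≤ 3 * η := by
    refine hyabs.trans ?_
    have : a * |δ| ≤ 2 * η := mul_le_mul ha2 hδ (abs_nonneg _) (by norm_num)
    have h' : a * |δ| * (1 + η) ≤ 2 * η * (1 + η) := mul_le_mul_of_nonneg_right this (by linarith)
    nlinarith
  have hexp : Real.exp y ≤ 1 + y + y ^ 2 * (1 / 2 + η) := by
    have h := Real.exp_bound (x := y) (by linarith) (n := 3) (by norm_num)
    simp only [Finset.sum_range_succ, Finset.sum_range_zero] at h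
    norm_num [Nat.factorial] at h
    have h' := (abs_le.1 h).2
    have e : |y| ^ 3 = |y| * y ^ 2 := by rw [pow_succ', sq_abs]
    rw [e] at h'
    have := mul_le_mul_of_nonneg_right hy3 (sq_nonneg y)
    nlinarith [sq_nonneg y]
  refine hexp.trans ?_
  have hy2 : y ^ 2 ≤ a ^ 2 * δ ^ 2 * (1 + η) ^ 2 := by
    have := pow_le_pow_left₀ (abs_nonneg y) hyabs 2
    rw [sq_abs] at this
    calc y ^ 2 ≤ _ := this
      _ = a ^ 2 * δ ^ 2 * (1 + η) ^ 2 := by rw [mul_pow, mul_pow, sq_abs]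
  have hpoly : (1 + η) ^ 2 * (1 / 2 + η) ≤ 1 / 2 + 3 * η := by
    nlinarith [mul_le_mul_of_nonneg_right hη hη0,
      mul_le_mul_of_nonneg_right hη (mul_nonneg hη0 hη0)]
  have hA : y ^ 2 * (1 / 2 + η) ≤ a ^ 2 * δ ^ 2 * (1 / 2 + 3 * η) := by
    calc y ^ 2 * (1 / 2 + η) ≤ a ^ 2 * δ ^ 2 * (1 + η) ^ 2 * (1 / 2 + η) :=
          mul_le_mul_of_nonneg_right hy2 (by linarith)
      _ = a ^ 2 * δ ^ 2 * ((1 + η) ^ 2 * (1 / 2 + η)) := by ring
      _ ≤ _ := mul_le_mul_of_nonneg_left hpoly (by positivity)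
  have hB : (2 * a + 3 * a ^ 2) * (η * δ ^ 2) ≤ 16 * (η * δ ^ 2) :=
    mul_le_mul_of_nonneg_right (by nlinarith) (mul_nonneg hη0 (sq_nonneg _))
  rw [hy] at hA ⊢
  nlinarith

variable {ι : Type*} [Fintype ι]

/-- Squared length. -/
def sqn (x : ι → ℝ) : ℝ := ∑ j, x j ^ 2

theorem sqn_nonneg (x : ι → ℝ) : 0 ≤ sqn x := sum_nonneg fun _ _ => sq_nonneg _

theorem sqn_add (x y : ι → ℝ) : sqn (x + y) = sqn x + 2 * (∑ j, x j * y j) + sqn y := by
  simp only [sqn, Pi.add_apply, mul_sum, ← sum_add_distrib]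
  exact sum_congr rfl fun j _ => by ring

theorem cross_le (x y : ι → ℝ) {η : ℝ} (hη : 0 < η) :
    |2 * ∑ j, x j * y j| ≤ η * sqn x + sqn y / η := by
  rw [sqn, sqn, mul_sum, mul_sum, sum_div, ← sum_add_distrib]
  refine (abs_sum_le_sum_abs _ _).trans (sum_le_sum fun j _ => ?_)
  have h : (y j ^ 2 / η) * η = y j ^ 2 := div_mul_cancel₀ _ hη.ne'
  rw [abs_le]
  constructor <;>
    nlinarith [sq_nonneg (η * x j + y j), sq_nonneg (η * x j - y j), h, hη]

variable {κι : Type*} [Fintype κι]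

/-- Balanced rows: the drift and spread conditions on the images of the steps. -/
def GoodRow (y : κι → ι → ℝ) (s κ : ℝ) (p : κι → ℝ) : Prop :=
  (∀ i, 0 ≤ p i) ∧ ∑ i, p i = 1 ∧ (∀ j, ∑ i, p i * y i j = 0) ∧ κ ≤ ∑ i, p i * sqn (y i) ∧
    ∀ u : ι → ℝ, ∑ i, p i * (∑ j, u j * y i j) ^ 2 ≤ s * sqn u * ∑ i, p i * sqn (y i)

/-- The Lyapunov function. -/
noncomputable def lyap (c0 a : ℝ) (x : ι → ℝ) : ℝ := (c0 / (c0 + sqn x)) ^ a

theorem lyap_drift (y : κι → ι → ℝ) {s κ : ℝ} (hs0 : 1 / 8 ≤ s) (hs : s < 1 / 4) (hκ : 0 < κ) :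
    ∃ a c0 c : ℝ, 1 < a ∧ 0 < c0 ∧ 0 < c ∧ ∀ p, GoodRow y s κ p → ∀ x : ι → ℝ,
      ∑ i, p i * lyap c0 a (x + y i) ≤ lyap c0 a x - c * lyap c0 a x ^ (1 + a⁻¹) := by
  set a := 1 / (4 * s) with ha
  have ha1 : 1 < a := by rw [ha, lt_div_iff₀ (by linarith)]; linarith
  have ha2 : a ≤ 2 := by rw [ha, div_le_iff₀ (by linarith)]; linarith
  have has : a * s = 1 / 4 := by
    rw [ha]
    field_simp
  set η := min (1 / 8) ((1 / 4 - s) / 20) with hηd
  have hη0 : 0 < η := lt_min (by norm_num) (by linarith)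
  have hη8 : η ≤ 1 / 8 := min_le_left _ _
  have hηs : 20 * η ≤ 1 / 4 - s := by
    have := min_le_right (1 / 8 : ℝ) ((1 / 4 - s) / 20)
    linarith
  set B := ∑ i, sqn (y i)
  have hB0 : 0 ≤ B := sum_nonneg fun i _ => sqn_nonneg _
  have hyB : ∀ i, sqn (y i) ≤ B := fun i =>
    single_le_sum (fun j _ => sqn_nonneg (y j)) (mem_univ i)
  set c0 := (1 / η + 1) * (B + 1) / η with hc0d
  have hc0 : 0 < c0 := by positivity
  have hηc : (1 / η + 1) * B ≤ η * c0 := by
    rw [hc0d, mul_div_cancel₀ _ hη0.ne']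
    gcongr
    linarith
  set K := a * (a + 1) / 2 + 16 * η
  set l := a - 4 * (1 + η) * s * K with hl
  have hl0 : 0 < l := by
    have e1 : a * (a + 1) * s = (a + 1) / 4 := by rw [mul_right_comm, has]; ring
    have e2 : 4 * (1 + η) * s * K = (1 + η) * ((a + 1) / 2) + 64 * η * (1 + η) * s := by
      calc 4 * (1 + η) * s * K
          = (1 + η) * (2 * (a * (a + 1) * s)) + 64 * η * (1 + η) * s := by ring
        _ = _ := by rw [e1]; ring
    have e3 : 1 - 4 * s ≤ a - 1 := by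
      rw [ha, le_sub_iff_add_le, le_div_iff₀ (by linarith)]
      nlinarith
    rw [hl, e2]
    have p1 : η * (a + 1) ≤ η * 3 := mul_le_mul_of_nonneg_left (by linarith) hη0.le
    have p2 : η * ((1 + η) * s) ≤ η * (9 / 8 * (1 / 4)) :=
      mul_le_mul_of_nonneg_left (mul_le_mul (by linarith) hs.le (by linarith) (by norm_num)) hη0.le
    linarith
  refine ⟨a, c0, l * κ / c0, ha1, hc0, by positivity, fun p hp x => ?_⟩
  obtain ⟨hp0, hp1, hdr, hT, hsp⟩ := hp
  set T := ∑ i, p i * sqn (y i)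
  set A := c0 + sqn x with hAd
  have hA : 0 < A := add_pos_of_pos_of_nonneg hc0 (sqn_nonneg x)
  set D : κι → ℝ := fun i => sqn (x + y i) - sqn x
  set δ : κι → ℝ := fun i => D i / A
  have hD : ∀ i, |D i| ≤ η * A := fun i => by
    have e : D i = 2 * (∑ j, x j * y i j) + sqn (y i) := by simp [D, sqn_add]; ring
    have h1 := cross_le x (y i) hη0
    have h2 := hyB i
    have h3 := sqn_nonneg (y i)
    have h4 : sqn (y i) / η + sqn (y i) ≤ η * c0 := by
      refine le_trans ?_ hηc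
      rw [add_mul, one_div_mul_eq_div, one_mul]
      gcongr
    rw [e]
    refine (abs_add_le _ _).trans ?_
    rw [abs_of_nonneg h3, hAd, mul_add]
    linarith
  have hδ : ∀ i, |δ i| ≤ η := fun i => by
    rw [abs_div, abs_of_pos hA, div_le_iff₀ hA]
    exact hD i
  have hfac : ∀ i, lyap c0 a (x + y i) = lyap c0 a x * (1 + δ i) ^ (-a) := fun i => by
    have h1 : 0 < 1 + δ i := by
      have := (abs_le.1 (hδ i)).1
      linarith
    have e : c0 / (c0 + sqn (x + y i)) = c0 / A * (1 + δ i)⁻¹ := by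
      have : A * (1 + δ i) = c0 + sqn (x + y i) := by
        simp only [δ, D]
        rw [mul_add, mul_one, mul_div_cancel₀ _ hA.ne', hAd]
        ring
      rw [← this, div_mul_eq_div_div, div_eq_mul_inv]
    simp only [lyap]
    rw [e, Real.mul_rpow (by positivity) (by positivity), Real.inv_rpow h1.le,
      Real.rpow_neg h1.le]
  have hE1 : ∑ i, p i * D i = T := by
    simp only [D, sqn_add, add_sub_cancel_left, add_assoc, mul_add, sum_add_distrib]
    have : ∑ i, p i * (2 * ∑ j, x j * y i j) = 0 := by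
      calc ∑ i, p i * (2 * ∑ j, x j * y i j)
          = ∑ j, 2 * x j * ∑ i, p i * y i j := by
            simp only [mul_sum]
            rw [sum_comm]
            exact sum_congr rfl fun j _ => sum_congr rfl fun i _ => by ring
        _ = 0 := by simp [hdr]
    linarith
  have hT0 : 0 ≤ T := sum_nonneg fun i _ => mul_nonneg (hp0 i) (sqn_nonneg _)
  have hE2 : ∑ i, p i * D i ^ 2 ≤ 4 * (1 + η) * s * T * A := by
    have hpt : ∀ i, p i * D i ^ 2 ≤
        4 * (1 + η) * (p i * (∑ j, x j * y i j) ^ 2) + (1 + 1 / η) * B * (p i * sqn (y i)) := by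
      intro i
      have e : D i = 2 * (∑ j, x j * y i j) + sqn (y i) := by simp [D, sqn_add]; ring
      set w := ∑ j, x j * y i j
      set q := sqn (y i)
      have hq : 0 ≤ q := sqn_nonneg _
      have h1 : (2 * w + q) ^ 2 ≤ 4 * (1 + η) * w ^ 2 + (1 + 1 / η) * (q * q) := by
        have h : (q * q / η) * η = q * q := div_mul_cancel₀ _ hη0.ne'
        rw [add_mul 1 (1 / η), one_mul, one_div_mul_eq_div]
        nlinarith [sq_nonneg (2 * η * w - q)]
      have h2 : (1 + 1 / η) * (q * q) ≤ (1 + 1 / η) * (B * q) :=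
        mul_le_mul_of_nonneg_left (mul_le_mul_of_nonneg_right (hyB i) hq) (by positivity)
      rw [e]
      calc p i * (2 * w + q) ^ 2 ≤ p i * (4 * (1 + η) * w ^ 2 + (1 + 1 / η) * (B * q)) :=
            mul_le_mul_of_nonneg_left (by linarith) (hp0 i)
        _ = _ := by ring
    refine (sum_le_sum fun i _ => hpt i).trans ?_
    rw [sum_add_distrib, ← mul_sum, ← mul_sum]
    have h2 : (1 + 1 / η) * B ≤ 4 * (1 + η) * s * c0 := by
      rw [add_comm]
      refine hηc.trans (mul_le_mul_of_nonneg_right ?_ hc0.le)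
      nlinarith
    calc 4 * (1 + η) * ∑ i, p i * (∑ j, x j * y i j) ^ 2 + (1 + 1 / η) * B * T
        ≤ 4 * (1 + η) * (s * sqn x * T) + 4 * (1 + η) * s * c0 * T := by
          gcongr
          exact hsp x
      _ = _ := by rw [hAd]; ring
  have hsum : ∑ i, p i * (1 + δ i) ^ (-a) ≤ 1 - l * T / A := by
    calc ∑ i, p i * (1 + δ i) ^ (-a)
        ≤ ∑ i, p i * (1 - a * δ i + K * δ i ^ 2) :=
          sum_le_sum fun i _ => mul_le_mul_of_nonneg_left
            (rpow_taylor (by linarith) ha2 (hδ i) hη8) (hp0 i)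
      _ = 1 - a * (∑ i, p i * D i) / A + K * (∑ i, p i * D i ^ 2) / (A * A) := by
          rw [mul_sum, mul_sum, sum_div, sum_div]
          conv_rhs => rw [← hp1, ← sum_sub_distrib, ← sum_add_distrib]
          exact sum_congr rfl fun i _ => by simp only [δ]; field_simp
      _ ≤ 1 - a * T / A + K * (4 * (1 + η) * s * T * A) / (A * A) := by
          rw [hE1]
          gcongr
      _ = _ := by
          rw [hl]
          field_simp
          ring
  calc ∑ i, p i * lyap c0 a (x + y i)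
      = lyap c0 a x * ∑ i, p i * (1 + δ i) ^ (-a) := by
        rw [mul_sum]
        exact sum_congr rfl fun i _ => by rw [hfac]; ring
    _ ≤ lyap c0 a x * (1 - l * T / A) :=
        mul_le_mul_of_nonneg_left hsum (Real.rpow_nonneg (by positivity) _)
    _ ≤ lyap c0 a x * (1 - l * κ / A) := by
        gcongr
        exact Real.rpow_nonneg (by positivity) _
    _ = _ := by
        have hbase : 0 < c0 / A := by positivity
        have e : lyap c0 a x ^ (1 + a⁻¹) = lyap c0 a x * (c0 / A) := by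
          simp only [lyap, ← hAd]
          rw [← Real.rpow_mul hbase.le, mul_add, mul_one, mul_inv_cancel₀ (by linarith),
            Real.rpow_add hbase, Real.rpow_one]
        rw [e]
        field_simp

end Vale.Agent.P147.Bal
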