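import Vale.Agent.P147.Main

/-! P147: the directional zero-one law when the randomness of a row is confined to splitting
fixed masses between steps differing by one fixed vector. -/

namespace Vale.Agent.P147.Pairing

open MeasureTheory Filter Vale.Agent.P147
open scoped Classical

theorem zero_one_pairs {d : ℕ} (μ : Measure (Dir d → ℝ)) [IsProbabilityMeasure μ]
    (hμ : ∀ᵐ p ∂μ, (∀ e, 0 ≤ p e) ∧ ∑ e, p e = 1)
    (v : Site d) (hv : v ≠ 0)
    (hdet : ∀ e : Dir d, ∃ q : ℝ, ∀ᵐ p ∂μ,
      (∑ e' : Dir d, if vec e' = vec e ∨ vec e' = vec e + v ∨ vec e' = vec e - v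
        then p e' else 0) = q) :
    (∃ P : Measure (ℕ → Site d), IsProbabilityMeasure P ∧ IsAnnealed μ P) ∧
      ∀ P : Measure (ℕ → Site d), IsAnnealed μ P → ∀ ℓ : Fin d → ℝ,
        P {X | Tendsto (fun n => ∑ i, ℓ i * (X n i : ℝ)) atTop atTop} = 0 ∨
          P {X | Tendsto (fun n => ∑ i, ℓ i * (X n i : ℝ)) atTop atTop} = 1 := by
  choose q hq using hdet
  have hgood : ∀ᵐ p ∂μ, Good v q p := by
    filter_upwards [hμ, ae_all_iff.2 hq] with p hp hpq
    refine ⟨hp.1, hp.2, fun e => ?_⟩
    rw [cls, Finset.sum_filter]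
    exact hpq e
  obtain ⟨p₀, hp₀⟩ := hgood.exists
  have := isProbabilityMeasure_noise hv hp₀
  refine ⟨⟨law μ v q, Measure.isProbabilityMeasure_map measurable_path.aemeasurable,
    isAnnealed_law hv hgood⟩, fun P hP ℓ => ?_⟩
  rcases le_total 0 (dot ℓ v) with hℓ | hℓ
  · rw [hP.unique (isAnnealed_law hv hgood)]
    exact law_zero_or_one hv hgood hℓ
  · have hneg : ∀ᵐ p ∂μ, Good (-v) q p := by
      filter_upwards [hgood] with p hp
      refine ⟨hp.1, hp.2.1, fun e => ?_⟩
      have : cls (-v) e = cls v e := by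
        ext x
        simp only [cls, Finset.mem_filter, Finset.mem_univ, true_and, ← sub_eq_add_neg,
          sub_neg_eq_add]
        tauto
      rw [this]; exact hp.2.2 e
    rw [hP.unique (isAnnealed_law (neg_ne_zero.2 hv) hneg)]
    refine law_zero_or_one (neg_ne_zero.2 hv) hneg ?_
    simpa [dot, Finset.sum_neg_distrib] using neg_nonneg.2 hℓ

end Vale.Agent.P147.Pairing
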